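import Vale.Agent.P022D.W.Typ

/-!
# P022D, block W: two lifts, equality of types, the type elements, rigidity
-/

set_option linter.all false

noncomputable section

namespace Vale.Agent.P022D.W

open Classical

section defs

variable {G A F : Type} [Group G] [CommRing A] [Field F]

/-- the two characters attached to a trace function and a determinant -/
def dd (π : A →+* F) (a0 : F) (g0 : G) (t d : G → A) (i : Fin 2) (s : G) : A :=
  ![d1 π a0 g0 t d s, d2 π a0 g0 t d s] i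

/-- `(t, d)` and `(t', d')` have the same type -/
def TY (π : A →+* F) (a0 : F) (g0 : G) (I H : Subgroup G) (t d t' d' : G → A) : Prop :=
  ∀ s ∈ I, s ∈ H → ∀ i, dd π a0 g0 t d i s = dd π a0 g0 t' d' i s

/-- the type elements: the quotients of the characters at `τ` -/
def yy (π : A →+* F) (a0 : F) (g0 τ : G) (t d t' d' : G → A) (i : Fin 2) : A :=
  dd π a0 g0 t d i τ * Ring.inverse (dd π a0 g0 t' d' i τ)

end defs

section

variable {G A F : Type} [Group G] [CommRing A] [Field F] {π : A →+* F} {ℓ : ℕ}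
  {D I N H : Subgroup G} {τ φ g0 : G} {rb : G →* Mt F}

/-- naturality of the characters, with a twist -/
theorem dd_map {B : Type} [CommRing B] {π' : B →+* F} (hW : WD ℓ D H g0 rb) (hA : LR π)
    (hB : LR π') (u : A →+* B) (hu : ∀ a, π' (u a) = π a) {ρ : G →* Mt A} (hρ : Lift π rb ρ)
    {t' d' : G → B} (χ : G →* B) (hχ : π' (χ g0) = 1) (ht : ∀ g, t' g = χ g * u (trc ρ g))
    (hd : d' g0 = χ g0 ^ 2 * u (dtm ρ g0)) (i : Fin 2) (s : G) :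
    dd π' (rb g0 0 0) g0 t' d' i s = χ s * u (dd π (rb g0 0 0) g0 (trc ρ) (dtm ρ) i s) := by
  have := d_map (s := s) (χ := χ) hA hB u hu (hρ.ent g0 0 0) (res_g0 hW hρ).1 (res_g0 hW hρ).2
    hχ (ht g0) hd (ht s) (by rw [ht, map_mul])
  fin_cases i
  · exact this.1
  · exact this.2

theorem trc_map {B : Type} [CommRing B] (u : A →+* B) {ρ : G →* Mt A} {ρ' : G →* Mt B}
    (h : ∀ g, (ρ g).map u = ρ' g) (g : G) : trc ρ' g = u (trc ρ g) := by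
  simp [trc, ← h, Matrix.trace_fin_two]

theorem dtm_map {B : Type} [CommRing B] (u : A →+* B) {ρ : G →* Mt A} {ρ' : G →* Mt B}
    (h : ∀ g, (ρ g).map u = ρ' g) (g : G) : dtm ρ' g = u (dtm ρ g) := by
  simp [dtm, ← h, Matrix.det_fin_two]

theorem dd_nat {B : Type} [CommRing B] {π' : B →+* F} (hW : WD ℓ D H g0 rb) (hA : LR π)
    (hB : LR π') (u : A →+* B) (hu : ∀ a, π' (u a) = π a) {ρ : G →* Mt A} (hρ : Lift π rb ρ)
    {ρ' : G →* Mt B} (h : ∀ g, (ρ g).map u = ρ' g) (i : Fin 2) (s : G) :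
    dd π' (rb g0 0 0) g0 (trc ρ') (dtm ρ') i s =
      u (dd π (rb g0 0 0) g0 (trc ρ) (dtm ρ) i s) := by
  have := dd_map hW hA hB u hu hρ (t' := trc ρ') (d' := dtm ρ') 1 (by simp)
    (fun g => by simp [trc_map u h]) (by simp [dtm_map u h]) i s
  simpa using this

theorem Mon.dd (hW : WD ℓ D H g0 rb) (hA : LR π) {σ : G →* Mt A} (hσ : Lift π rb σ)
    (hM : Mon D H σ) {s : G} (hs : s ∈ D) (hsH : s ∈ H) (i : Fin 2) :
    dd π (rb g0 0 0) g0 (trc σ) (dtm σ) i s = σ s i i := by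
  have := hM.d hW hA hσ hs hsH
  fin_cases i
  · exact this.1
  · exact this.2

/-- two monomial lifts with a common tame structure -/
structure Two (π : A →+* F) (ℓ : ℕ) (D I N H : Subgroup G) (τ φ g0 : G) (rb : G →* Mt F)
    (σ σ' : G →* Mt A) : Prop where
  W : WD ℓ D H g0 rb
  A : LR π
  l1 : Lift π rb σ
  l2 : Lift π rb σ'
  m1 : Mon D H σ
  m2 : Mon D H σ'
  T : TameAt ℓ D I N τ φ (σ.prod σ')

variable {σ σ' : G →* Mt A}

theorem Two.T1 (h : Two π ℓ D I N H τ φ g0 rb σ σ') : TameAt ℓ D I N τ φ σ :=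
  h.T.comp (MonoidHom.fst _ _)

theorem Two.NH (h : Two π ℓ D I N H τ φ g0 rb σ σ') : N ≤ H := N_le h.W h.l1 h.T1

theorem Two.onN (h : Two π ℓ D I N H τ φ g0 rb σ σ') {p : G} (hp : p ∈ N) (i : Fin 2) :
    σ p i i = σ' p i i := by
  obtain ⟨m, hm, e⟩ := h.T.odd p hp
  have hD := h.T.ID (h.T.NI hp)
  have e1 : σ p ^ m = 1 := congrArg Prod.fst e
  have e2 : σ' p ^ m = 1 := congrArg Prod.snd e
  refine odd_root h.A h.W.two hm ?_ (by rw [h.l1.ent, h.l2.ent])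
    (by rw [h.l2.ent]; exact h.W.dne i (h.NH hp))
  rw [← h.m1.pow hD (h.NH hp), ← h.m2.pow hD (h.NH hp), map_pow, map_pow, e1, e2]

theorem Two.unit (h : Two π ℓ D I N H τ φ g0 rb σ σ') {g : G} (hg : g ∈ H) (i : Fin 2) :
    IsUnit (σ' g i i) := h.A.loc _ (by rw [h.l2.ent]; exact h.W.dne i hg)

theorem Two.gen_in (h : Two π ℓ D I N H τ φ g0 rb σ σ') (hτ : τ ∈ H) (i : Fin 2)
    (e : σ τ i i = σ' τ i i) {s : G} (hs : s ∈ I) : σ s i i = σ' s i i := by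
  obtain ⟨k, p, hp, rfl⟩ := h.T.cyc s hs
  have hD := h.T.ID h.T.tau
  rw [h.m1.mul (D.pow_mem hD k) (H.pow_mem hτ k), h.m2.mul (D.pow_mem hD k) (H.pow_mem hτ k),
    h.m1.pow hD hτ, h.m2.pow hD hτ, e, h.onN hp]

theorem Two.gen_out (h : Two π ℓ D I N H τ φ g0 rb σ σ') (hτ : τ ∉ H)
    (e : (σ τ).det = (σ' τ).det) {s : G} (hs : s ∈ I) (hsH : s ∈ H) (i : Fin 2) :
    σ s i i = σ' s i i := by
  obtain ⟨k, p, hp, rfl⟩ := h.T.cyc s hs
  have hD := h.T.ID h.T.tau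
  have hk : τ ^ k ∈ H := by simpa using H.mul_mem hsH (H.inv_mem (h.NH hp))
  rcases Nat.even_or_odd k with ⟨j, rfl⟩ | hodd
  · have e1 : τ ^ (j + j) = (τ * τ) ^ j := by rw [← two_mul, pow_mul, sq]
    have h2 := h.W.mul_not hτ hτ
    rw [h.m1.mul (D.pow_mem hD _) hk, h.m2.mul (D.pow_mem hD _) hk, e1,
      h.m1.pow (D.mul_mem hD hD) h2, h.m2.pow (D.mul_mem hD hD) h2, h.m1.sq hD hτ, h.m2.sq hD hτ,
      e, h.onN hp]
  · exact absurd (h.W.of_odd hodd hk) hτ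

theorem Two.rel (h : Two π ℓ D I N H τ φ g0 rb σ σ') (hτ : τ ∈ H) {i j : Fin 2}
    (hij : (φ ∈ H ∧ i = j) ∨ (φ ∉ H ∧ i ≠ j)) {y y' : A} (hy : σ τ i i = y * σ' τ i i)
    (hy' : σ τ j j = y' * σ' τ j j) : y' = y ^ ℓ := by
  obtain ⟨p, hp, e⟩ := h.T.rel τ h.T.tau
  have hD := h.T.ID h.T.tau
  have hpD := h.T.ID (h.T.NI hp)
  have key : ∀ {ρ : G →* Mt A}, Mon D H ρ → ρ τ j j = ρ p i i * ρ τ i i ^ ℓ := by
    intro ρ hM
    rw [← hM.pow hD hτ, ← hM.mul hpD (h.NH hp), ← e]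
    rcases hij with ⟨h1, rfl⟩ | ⟨h1, h2⟩
    · exact (hM.conj h.T.phi h1 hD hτ i).symm
    · exact (hM.swp φ h.T.phi h1 τ hD hτ i j h2).symm
  apply (h.unit hτ j).mul_right_cancel
  rw [← hy', key h.m1, key h.m2, hy, h.onN hp, mul_pow]; ring

theorem two_pow_of (hA : LR π) (h2 : (2 : F) = 0) {y : A} (hy : π y = 1) {a m : ℕ} (hm : Odd m)
    (h : y ^ (2 ^ a * m + 1) = y) : y ^ 2 ^ a = 1 := by
  have hu : IsUnit y := hA.loc _ (by rw [hy]; exact one_ne_zero)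
  refine odd_root hA h2 hm ?_ (by rw [map_pow, hy, one_pow, map_one]) (by simp)
  apply hu.mul_right_cancel
  rw [← pow_mul, ← pow_succ, h, one_pow, one_mul]

theorem Two.eq_of (h : Two π ℓ D I N H τ φ g0 rb σ σ') {g : G} (hg : g ∈ D)
    (e : ∀ i j, (g ∈ H ∧ i = j) ∨ (g ∉ H ∧ i ≠ j) → σ g i j = σ' g i j) : σ g = σ' g := by
  ext i j
  by_cases hgH : g ∈ H <;> by_cases hij : i = j
  · exact e i j (Or.inl ⟨hgH, hij⟩)
  · rw [h.m1.off g hg hgH i j hij, h.m2.off g hg hgH i j hij]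
  · subst hij; rw [h.m1.dia g hg hgH, h.m2.dia g hg hgH]
  · exact e i j (Or.inr ⟨hgH, hij⟩)

theorem Two.all (h : Two π ℓ D I N H τ φ g0 rb σ σ') (hI : ∀ s ∈ I, σ s = σ' s)
    (hφ : σ φ = σ' φ) {g : G} (hg : g ∈ D) : σ g = σ' g := by
  obtain ⟨k, s, hs, e⟩ := h.T.gen g hg
  have e1 : σ g = σ (φ ^ k * s) := congrArg Prod.fst e
  have e2 : σ' g = σ' (φ ^ k * s) := congrArg Prod.snd e
  rw [e1, e2, map_mul, map_mul, map_pow, map_pow, hφ, hI s hs]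

/-- the elements, rows and columns of the four coordinates -/
def cg (H : Subgroup G) (g0 τ φ : G) : Fin 4 → G := ![g0, g0, φ, if τ ∈ H then φ else τ]

/-- the rows -/
def cp (H : Subgroup G) (τ : G) : Fin 4 → Fin 2 := ![0, 1, 0, if τ ∈ H then 1 else 0]

/-- the columns -/
def cq (H : Subgroup G) (τ φ : G) : Fin 4 → Fin 2 :=
  ![1, 0, if φ ∈ H then 0 else 1, if τ ∈ H then (if φ ∈ H then 1 else 0) else 1]

theorem Two.rigid (h : Two π ℓ D I N H τ φ g0 rb σ σ')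
    (ty : ∀ s ∈ I, s ∈ H → ∀ i, σ s i i = σ' s i i)
    (hc : ∀ t, σ (cg H g0 τ φ t) (cp H τ t) (cq H τ φ t) =
      σ' (cg H g0 τ φ t) (cp H τ t) (cq H τ φ t)) {g : G} (hg : g ∈ D) : σ g = σ' g := by
  have c2 := hc 2
  have c3 := hc 3
  have hD := h.T.ID h.T.tau
  have hIH : ∀ s ∈ I, s ∈ H → σ s = σ' s := fun s hs hsH => h.eq_of (h.T.ID hs) (by
    rintro i j (⟨-, rfl⟩ | ⟨h1, -⟩)
    · exact ty s hs hsH i
    · exact absurd hsH h1)
  by_cases hτ : τ ∈ H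
  · refine h.all (fun s hs => hIH s hs ?_) (h.eq_of h.T.phi ?_) hg
    · obtain ⟨k, p, hp, rfl⟩ := h.T.cyc s hs
      exact H.mul_mem (H.pow_mem hτ k) (h.NH hp)
    · rintro i j (⟨h1, rfl⟩ | ⟨h1, h2⟩)
      · simp [cg, cp, cq, hτ, h1] at c2 c3
        fin_cases i
        · exact c2
        · exact c3
      · simp [cg, cp, cq, hτ, h1] at c2 c3
        fin_cases i <;> fin_cases j <;> simp_all
  · have b : σ τ 0 1 = σ' τ 0 1 := by simpa [cg, cp, cq, hτ] using c3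
    have hb : IsUnit (σ' τ 0 1) := h.A.loc _ (by rw [h.l2.ent]; exact h.W.ane (by decide) hτ)
    have eτ : σ τ = σ' τ := by
      have h2 := ty _ (I.mul_mem h.T.tau h.T.tau) (h.W.mul_not hτ hτ) 0
      rw [map_mul, map_mul, ent1 _ _ (show (0 : Fin 2) ≠ 1 by decide),
        ent1 _ _ (show (0 : Fin 2) ≠ 1 by decide), h.m1.dia τ hD hτ, h.m2.dia τ hD hτ, b] at h2
      have c : σ τ 1 0 = σ' τ 1 0 := hb.mul_left_cancel (by simpa using h2)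
      refine h.eq_of hD ?_
      rintro i j (⟨h1, -⟩ | ⟨-, h1⟩)
      · exact absurd h1 hτ
      · fin_cases i <;> fin_cases j <;> simp_all
    have hI : ∀ s ∈ I, σ s = σ' s := by
      intro s hs
      obtain ⟨k, p, hp, rfl⟩ := h.T.cyc s hs
      rw [map_mul, map_mul, map_pow, map_pow, eτ, hIH p (h.T.NI hp) (h.NH hp)]
    have key : ∀ ψ ∈ D, ψ ∈ H → σ ψ 0 0 = σ' ψ 0 0 → σ ψ = σ' ψ := by
      intro ψ hψ hψH e0
      have hs : ψ⁻¹ * τ * ψ⁻¹⁻¹ * τ⁻¹ ∈ I :=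
        I.mul_mem (h.T.cjI _ (D.inv_mem hψ) τ h.T.tau) (I.inv_mem h.T.tau)
      have e1 : τ * ψ * τ⁻¹ = ψ * (ψ⁻¹ * τ * ψ⁻¹⁻¹ * τ⁻¹) := by group
      have e2 : σ ψ 1 1 = σ' ψ 1 1 := by
        rw [← h.m1.swp τ hD hτ ψ hψ hψH 0 1 (by decide),
          ← h.m2.swp τ hD hτ ψ hψ hψH 0 1 (by decide), e1, h.m1.mul hψ hψH, h.m2.mul hψ hψH, e0,
          hI _ hs]
      refine h.eq_of hψ ?_
      rintro i j (⟨-, rfl⟩ | ⟨h1, -⟩)
      · fin_cases i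
        · exact e0
        · exact e2
      · exact absurd hψH h1
    refine h.all hI ?_ hg
    by_cases hφ : φ ∈ H
    · exact key φ h.T.phi hφ (by simpa [cg, cp, cq, hφ] using c2)
    · have c : σ φ 0 1 = σ' φ 0 1 := by simpa [cg, cp, cq, hφ] using c2
      have hi : τ⁻¹ ∉ H := fun h1 => hτ (by simpa using H.inv_mem h1)
      have h1 := key (φ * τ⁻¹) (D.mul_mem h.T.phi (D.inv_mem hD)) (h.W.mul_not hφ hi) (by
        rw [map_mul, map_mul, ent1 _ _ (show (0 : Fin 2) ≠ 1 by decide),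
          ent1 _ _ (show (0 : Fin 2) ≠ 1 by decide), h.m1.dia φ h.T.phi hφ, h.m2.dia φ h.T.phi hφ,
          c, hI _ (I.inv_mem h.T.tau)])
      calc σ φ = σ (φ * τ⁻¹) * σ τ := by rw [← map_mul, inv_mul_cancel_right]
        _ = σ' φ := by rw [h1, eτ, ← map_mul, inv_mul_cancel_right]

/-- two lifts with a common tame structure -/
structure Pr (π : A →+* F) (ℓ : ℕ) (D I N H : Subgroup G) (τ φ g0 : G) (rb : G →* Mt F)
    (ρ r : G →* Mt A) : Prop where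
  W : WD ℓ D H g0 rb
  A : LR π
  l1 : Lift π rb ρ
  l2 : Lift π rb r
  T : TameAt ℓ D I N τ φ (ρ.prod r)

variable {ρ r : G →* Mt A}

theorem Pr.two (h : Pr π ℓ D I N H τ φ g0 rb ρ r) : ∃ σ σ' : G →* Mt A,
    Two π ℓ D I N H τ φ g0 rb σ σ' ∧ trc σ = trc ρ ∧ dtm σ = dtm ρ ∧ trc σ' = trc r ∧
      dtm σ' = dtm r := by
  obtain ⟨P, Q, h1, h2, hP, hM⟩ := exists_mon h.W h.A h.l1 (h.T.comp (MonoidHom.fst _ _))
  obtain ⟨P', Q', h1', h2', hP', hM'⟩ := exists_mon h.W h.A h.l2 (h.T.comp (MonoidHom.snd _ _))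
  exact ⟨_, _, ⟨h.W, h.A, h.l1.cj h1 h2 hP, h.l2.cj h1' h2' hP', hM, hM',
    h.T.comp ((cjH P Q h1 h2).prodMap (cjH P' Q' h1' h2'))⟩, trc_cj _ _ _ _ _, dtm_cj _ _ _ _ _,
    trc_cj _ _ _ _ _, dtm_cj _ _ _ _ _⟩

theorem Two.yy (h : Two π ℓ D I N H τ φ g0 rb σ σ') (hτ : τ ∈ H) (i : Fin 2) :
    σ τ i i = yy π (rb g0 0 0) g0 τ (trc σ) (dtm σ) (trc σ') (dtm σ') i * σ' τ i i := by
  have hD := h.T.ID h.T.tau
  rw [W.yy, h.m1.dd h.W h.A h.l1 hD hτ, h.m2.dd h.W h.A h.l2 hD hτ, mul_assoc,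
    Ring.inverse_mul_cancel _ (h.unit hτ i), mul_one]

theorem Two.ty (h : Two π ℓ D I N H τ φ g0 rb σ σ') :
    TY π (rb g0 0 0) g0 I H (trc σ) (dtm σ) (trc σ') (dtm σ') ↔
      ∀ s ∈ I, s ∈ H → ∀ i, σ s i i = σ' s i i := by
  refine forall_congr' fun s => forall_congr' fun hs => forall_congr' fun hsH =>
    forall_congr' fun i => ?_
  rw [h.m1.dd h.W h.A h.l1 (h.T.ID hs) hsH, h.m2.dd h.W h.A h.l2 (h.T.ID hs) hsH]

/-- **the type elements when `τ ∈ H`** -/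
theorem Pr.unr (h : Pr π ℓ D I N H τ φ g0 rb ρ r) (hτ : τ ∈ H) (y : Fin 2 → A)
    (hy : y = yy π (rb g0 0 0) g0 τ (trc ρ) (dtm ρ) (trc r) (dtm r)) :
    (∀ i, π (y i) = 1) ∧ dtm ρ τ = y 0 * y 1 * dtm r τ ∧
    (TY π (rb g0 0 0) g0 I H (trc ρ) (dtm ρ) (trc r) (dtm r) ↔ ∀ i, y i = 1) ∧
    (φ ∈ H → ∀ a m, Odd m → ℓ = 2 ^ a * m + 1 → ∀ i, y i ^ 2 ^ a = 1) ∧
    (φ ∉ H → y 1 = y 0 ^ ℓ ∧ ∀ c m, Odd m → ℓ ^ 2 = 2 ^ c * m + 1 → y 0 ^ 2 ^ c = 1) := by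
  obtain ⟨σ, σ', h2, e1, e2, e3, e4⟩ := h.two
  rw [← e1, ← e2, ← e3, ← e4] at hy ⊢
  have hD := h.T.ID h.T.tau
  have k : ∀ i, σ τ i i = y i * σ' τ i i := fun i => by rw [hy]; exact h2.yy hτ i
  have p1 : ∀ i, π (y i) = 1 := fun i => by
    have := congrArg π (k i)
    rw [map_mul, h2.l1.ent, h2.l2.ent] at this
    exact (mul_eq_right₀ (h.W.dne i hτ)).1 this.symm
  refine ⟨p1, ?_, ?_, fun hφ a m hm e i => ?_, fun hφ => ?_⟩
  · simp only [dtm, Matrix.det_fin_two, h2.m1.off τ hD hτ 0 1 (by decide),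
      h2.m2.off τ hD hτ 0 1 (by decide), k 0, k 1]
    ring
  · rw [h2.ty]
    refine ⟨fun ht i => ?_, fun h1 s hs _ i => h2.gen_in hτ i (by rw [k, h1, one_mul]) hs⟩
    apply (h2.unit hτ i).mul_right_cancel
    rw [← k, ht τ h.T.tau hτ, one_mul]
  · exact two_pow_of h.A h.W.two (p1 i) hm
      (by rw [← e]; exact (h2.rel hτ (Or.inl ⟨hφ, rfl⟩) (k i) (k i)).symm)
  · have a1 := h2.rel hτ (i := 0) (j := 1) (Or.inr ⟨hφ, by decide⟩) (k 0) (k 1)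
    have a2 := h2.rel hτ (i := 1) (j := 0) (Or.inr ⟨hφ, by decide⟩) (k 1) (k 0)
    exact ⟨a1, fun c m hm e => two_pow_of h.A h.W.two (p1 0) hm
      (by rw [← e, sq, pow_mul, ← a1, ← a2])⟩

/-- **the type when `τ ∉ H`** is the determinant -/
theorem Pr.ram (h : Pr π ℓ D I N H τ φ g0 rb ρ r) (hτ : τ ∉ H) :
    TY π (rb g0 0 0) g0 I H (trc ρ) (dtm ρ) (trc r) (dtm r) ↔ dtm ρ τ = dtm r τ := by
  obtain ⟨σ, σ', h2, e1, e2, e3, e4⟩ := h.two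
  rw [← e1, ← e2, ← e3, ← e4, h2.ty]
  have hD := h.T.ID h.T.tau
  refine ⟨fun ht => ?_, fun e s hs hsH i => h2.gen_out hτ e hs hsH i⟩
  have := ht _ (I.mul_mem h.T.tau h.T.tau) (h.W.mul_not hτ hτ) 0
  rw [h2.m1.sq hD hτ, h2.m2.sq hD hτ] at this
  exact neg_injective this

/-- equal types have equal traces and determinants on inertia -/
theorem Pr.tr_det (h : Pr π ℓ D I N H τ φ g0 rb ρ r)
    (ty : TY π (rb g0 0 0) g0 I H (trc ρ) (dtm ρ) (trc r) (dtm r)) {s : G} (hs : s ∈ I) :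
    trc ρ s = trc r s ∧ dtm ρ s = dtm r s := by
  obtain ⟨σ, σ', h2, e1, e2, e3, e4⟩ := h.two
  rw [← e1, ← e2, ← e3, ← e4] at ty ⊢
  rw [h2.ty] at ty
  have hD := h.T.ID hs
  by_cases hsH : s ∈ H
  · simp only [trc, dtm, Matrix.trace_fin_two, Matrix.det_fin_two, ty s hs hsH,
      h2.m1.off s hD hsH 0 1 (by decide), h2.m2.off s hD hsH 0 1 (by decide), zero_mul, and_self]
  · refine ⟨by simp only [trc, Matrix.trace_fin_two, h2.m1.dia s hD hsH, h2.m2.dia s hD hsH], ?_⟩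
    have := ty _ (I.mul_mem hs hs) (h.W.mul_not hsH hsH) 0
    rw [h2.m1.sq hD hsH, h2.m2.sq hD hsH] at this
    exact neg_injective this

/-- **rigidity**: same type and same four coordinates as a residually monomial lift `r` -/
theorem Pr.tan (h : Pr π ℓ D I N H τ φ g0 rb ρ r) (h01 : r g0 0 1 = 0) (h10 : r g0 1 0 = 0)
    (ty : TY π (rb g0 0 0) g0 I H (trc ρ) (dtm ρ) (trc r) (dtm r))
    (hc : ∀ t, ρ (cg H g0 τ φ t) (cp H τ t) (cq H τ φ t) =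
      r (cg H g0 τ φ t) (cp H τ t) (cq H τ φ t)) {g : G} (hg : g ∈ D) : ρ g = r g := by
  have c0 : ρ g0 0 1 = 0 := (hc 0).trans h01
  have c1 : ρ g0 1 0 = 0 := (hc 1).trans h10
  have h2 : Two π ℓ D I N H τ φ g0 rb ρ r := ⟨h.W, h.A, h.l1, h.l2,
    mon h.W h.A h.l1 (h.T.comp (MonoidHom.fst _ _)) c0 c1,
    mon h.W h.A h.l2 (h.T.comp (MonoidHom.snd _ _)) h01 h10, h.T⟩
  exact h2.rigid (h2.ty.1 ty) hc hg

end

end Vale.Agent.P022D.W
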