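import Vale.Agent.P022D.W.Pair

/-!
# P022D, block W: a pro-odd regular element makes the characters linear in the traces
-/

set_option linter.all false

noncomputable section

namespace Vale.Agent.P022D.W

open Classical NumberField
open Vale.Agent.P022 Vale.Agent.P022.H443

/-- roots of unity of odd order lift -/
theorem exists_teich {O F : Type} [CommRing O] [Field F] (red : O →+* F)
    (hs : Function.Surjective red) [HenselianRing O (RingHom.ker red)]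
    (hu : ∀ a, red a ≠ 0 → IsUnit a) (h2 : (2 : F) = 0) {x : F} {m : ℕ} (hm : Odd m)
    (hx : x ^ m = 1) : ∃ a : O, a ^ m = 1 ∧ red a = x := by
  obtain ⟨a0, rfl⟩ := hs x
  have hm0 : m ≠ 0 := hm.pos.ne'
  obtain ⟨a, h1, h3⟩ := HenselianRing.is_henselian (I := RingHom.ker red)
    (Polynomial.X ^ m - Polynomial.C (1 : O)) (Polynomial.monic_X_pow_sub_C 1 hm0) a0
    (by rw [RingHom.mem_ker]; simp [hx]) (by
      refine IsUnit.map _ (hu _ ?_)
      have hx0 : red a0 ≠ 0 := fun h => by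
        rw [h, zero_pow hm0] at hx; exact zero_ne_one hx
      obtain ⟨k, rfl⟩ := hm
      have h2' : red 2 = 0 := (map_ofNat red 2).trans h2
      simp [Polynomial.derivative_X_pow, hx0, h2, h2'])
  refine ⟨a, by simpa [sub_eq_zero] using h1, ?_⟩
  rw [RingHom.mem_ker, map_sub, sub_eq_zero] at h3
  exact h3

section gq

variable {F : Type} [Field F] {rb : GQ →* Mt F}

theorem pow_mem_open (U : Subgroup GQ) (hU : IsOpen (U : Set GQ)) (g : GQ) :
    ∃ k m : ℕ, Odd m ∧ g ^ (2 ^ k * m) ∈ U := by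
  have := galQb
  have := algQb
  haveI : Finite (GQ ⧸ U) := U.quotient_finite_of_isOpen hU
  haveI : U.FiniteIndex := Subgroup.finiteIndex_of_finite_quotient
  obtain ⟨n, hn, -, h⟩ := U.exists_pow_mem_of_index_ne_zero Subgroup.FiniteIndex.index_ne_zero g
  obtain ⟨k, m, hm, rfl⟩ := Nat.exists_eq_two_pow_mul_odd hn.ne'
  exact ⟨k, m, hm, h⟩

/-- the kernel of a homomorphism to a monoid -/
def kr {G Γ : Type*} [Group G] [Monoid Γ] (f : G →* Γ) : Subgroup G := f.toHomUnits.ker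

theorem mem_kr {G Γ : Type*} [Group G] [Monoid Γ] (f : G →* Γ) (g : G) : g ∈ kr f ↔ f g = 1 := by
  rw [kr, MonoidHom.mem_ker, Units.ext_iff]; rfl

instance {G Γ : Type*} [Group G] [Monoid Γ] (f : G →* Γ) : (kr f).Normal :=
  inferInstanceAs f.toHomUnits.ker.Normal

theorem kr_open {Γ : Type*} [Monoid Γ] {f : GQ →* Γ} (hf : IsOpen {g : GQ | f g = 1}) :
    IsOpen (kr f : Set GQ) := by
  have : (kr f : Set GQ) = {g : GQ | f g = 1} := Set.ext (mem_kr f)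
  rwa [this]

theorem odd_order (h2 : (2 : F) = 0) (ho : IsOpen {g : GQ | rb g = 1}) {g : GQ}
    (h01 : rb g 0 1 = 0) (h10 : rb g 1 0 = 0) : ∃ m, Odd m ∧ rb g ^ m = 1 := by
  haveI : CharP F 2 := (CharP.charP_iff_prime_eq_zero Nat.prime_two).2 (by exact_mod_cast h2)
  obtain ⟨k, m, hm, h⟩ := pow_mem_open (kr rb) (kr_open ho) g
  rw [mem_kr, map_pow] at h
  have e : rb g = Matrix.diagonal fun i => rb g i i := by
    ext i j
    fin_cases i <;> fin_cases j <;> simp [h01, h10]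
  refine ⟨m, hm, ?_⟩
  rw [e, Matrix.diagonal_pow] at h ⊢
  rw [← Matrix.diagonal_one] at h ⊢
  congr 1
  funext i
  have h1 := congrFun (Matrix.diagonal_injective h) i
  simp only [Pi.pow_apply] at h1 ⊢
  rw [mul_comm, pow_mul] at h1
  have h3 : (rb g i i ^ m - 1) ^ 2 ^ k = 0 := by rw [sub_pow_char_pow, h1, one_pow, sub_self]
  exact sub_eq_zero.1 (pow_eq_zero_iff (by positivity) |>.1 h3)

/-- `g` has odd order modulo every open normal subgroup -/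
def ProOdd (g : GQ) : Prop := ∀ U : Subgroup GQ, U.Normal → IsOpen (U : Set GQ) → OddMod U g

theorem ProOdd.pow {g : GQ} (h : ProOdd g) {Γ : Type*} [Monoid Γ] (f : GQ →* Γ)
    (hf : IsOpen {g : GQ | f g = 1}) : ∃ m, Odd m ∧ f g ^ m = 1 :=
  (h (kr f) inferInstance (kr_open hf)).imp fun m hm =>
    ⟨hm.1, by rw [← map_pow]; exact (mem_kr f _).1 hm.2⟩

theorem exists_proOdd {Γ : Type*} [Monoid Γ] (f : GQ →* Γ) (ho : IsOpen {g : GQ | f g = 1})
    (K : Subgroup GQ) (hK : IsClosed (K : Set GQ)) {g : GQ} (hg : g ∈ K) {m : ℕ} (hm : Odd m)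
    (e : f g ^ m = 1) : ∃ g1 ∈ K, f g1 = f g ∧ ProOdd g1 := by
  have := galQb
  let ι := {N : Subgroup GQ // N.Normal ∧ IsOpen (N : Set GQ)}
  let C : ι → Set GQ := fun N => (K : Set GQ) ∩ {x | f x = f g ∧ OddMod N.1 x}
  have hcl : ∀ N, IsClosed (C N) := by
    intro N
    have hn := N.2.1
    refine hK.inter (isClosed_of_right (N := N.1 ⊓ kr f) (N.2.2.inter (kr_open ho)) ?_)
    rintro x ⟨h1, h2⟩ n hn
    exact ⟨by rw [map_mul, (mem_kr f n).1 hn.2, mul_one, h1], h2.mul_mem hn.1⟩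
  have hne : ∀ N, (C N).Nonempty := by
    intro N
    obtain ⟨k, m', hm', h⟩ := pow_mem_open N.1 N.2.2 g
    have ht : 2 ^ Nat.totient m ≡ 1 [MOD m] :=
      Nat.ModEq.pow_totient (Nat.coprime_two_left.2 hm)
    have ht' : 2 ^ (Nat.totient m * k) ≡ 1 [MOD m] := by
      rw [pow_mul]; simpa using ht.pow k
    refine ⟨g ^ 2 ^ (Nat.totient m * k), K.pow_mem hg _, ?_, m', hm', ?_⟩
    · rw [map_pow, pow_eq_pow_of_modEq ht' e, pow_one]
    · obtain ⟨c, hc⟩ : 2 ^ k ∣ 2 ^ (Nat.totient m * k) :=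
        pow_dvd_pow 2 (Nat.le_mul_of_pos_left k (Nat.totient_pos.2 hm.pos))
      rw [hc, ← pow_mul, mul_right_comm, pow_mul]
      exact N.1.pow_mem h c
  have hdir : Directed (fun s t : Set GQ => s ⊇ t) C := by
    intro M N
    have := M.2.1
    have := N.2.1
    exact ⟨⟨M.1 ⊓ N.1, inferInstance, M.2.2.inter N.2.2⟩,
      fun x hx => ⟨hx.1, hx.2.1, hx.2.2.mono inf_le_left⟩,
      fun x hx => ⟨hx.1, hx.2.1, hx.2.2.mono inf_le_right⟩⟩
  have hnon : Nonempty ι := ⟨⟨⊤, inferInstance, isOpen_univ⟩⟩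
  obtain ⟨x, hx⟩ := IsCompact.nonempty_iInter_of_directed_nonempty_isCompact_isClosed C hdir hne
    (fun N => (hcl N).isCompact) hcl
  rw [Set.mem_iInter] at hx
  exact ⟨x, (hx (Classical.choice hnon)).1, (hx (Classical.choice hnon)).2.1,
    fun N h1 h2 => (hx ⟨N, h1, h2⟩).2.2⟩

theorem isClosed_dec (P : Ideal (𝓞 Qb)) : IsClosed (dec P : Set GQ) := by
  have := algQb
  have e : (dec P : Set GQ) = ⋂ x : 𝓞 Qb, {g : GQ | g • x ∈ P ↔ x ∈ P} := by
    ext g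
    simp only [Set.mem_iInter]
    exact Iff.rfl
  rw [e]
  refine isClosed_iInter fun x => ?_
  have h1 : IsOpen ((MulAction.stabilizer GQ (x : Qb) : Subgroup GQ) : Set GQ) :=
    stabilizer_isOpen_of_isIntegral (x : Qb)
  refine isClosed_of_right h1 fun g hg n hn => ?_
  have hn' : n • x = x := RingOfIntegers.ext (MulAction.mem_stabilizer_iff.1 hn)
  change (g * n) • x ∈ P ↔ x ∈ P
  rw [mul_smul, hn']
  exact hg

/-- **(i)** a pro-odd regular element of the decomposition group -/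
theorem exists_g1 {ℓ : ℕ} {P : Ideal (𝓞 Qb)} {H : Subgroup GQ} {g0 : GQ}
    (hW : WD ℓ (dec P) H g0 rb) (ho : IsOpen {g : GQ | rb g = 1}) :
    ∃ g1, WD ℓ (dec P) H g1 rb ∧ rb g1 = rb g0 ∧ ProOdd g1 ∧
      ∃ m, Odd m ∧ ∀ i, rb g1 i i ^ m = 1 := by
  obtain ⟨h01, h10⟩ := hW.dg g0 hW.g0H
  obtain ⟨m, hm, e⟩ := odd_order hW.two ho h01 h10
  obtain ⟨g1, hg, e1, hp⟩ := exists_proOdd rb ho (dec P) (isClosed_dec P) hW.g0D hm e
  refine ⟨g1, ⟨hW.odd, hW.two, hW.dg, hW.ad, hg, by rw [hW.mem_iff, e1, h01], by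
    rw [e1]; exact hW.ne⟩, e1, hp, m, hm, fun i => ?_⟩
  have key : ∀ n : ℕ, (rb g0 ^ n) i i = rb g0 i i ^ n := by
    intro n
    induction n with
    | zero => simp
    | succ n ih =>
      obtain ⟨c, hc⟩ := exists_ne i
      rw [pow_succ', ent1 _ _ hc.symm, hW.off hc.symm hW.g0H, ih, pow_succ']; ring
  rw [e1, ← key, e, Matrix.one_apply_eq]

end gq

section

variable {G A F : Type} [Group G] [CommRing A] [Field F] {π : A →+* F} {ℓ : ℕ}
  {D I N H : Subgroup G} {τ φ g0 : G} {rb : G →* Mt F}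

/-- `e 0`, `e 1` are roots of unity of odd order above the diagonal entries of `rb g0` -/
def Tm (π : A →+* F) (rb : G →* Mt F) (g0 : G) (e : Fin 2 → A) : Prop :=
  ∃ m, Odd m ∧ ∀ i, e i ^ m = 1 ∧ π (e i) = rb g0 i i

theorem Mon.eig (hW : WD ℓ D H g0 rb) (hA : LR π) {σ : G →* Mt A} (hσ : Lift π rb σ)
    (hM : Mon D H σ) {e : Fin 2 → A} (he : Tm π rb g0 e) (ho : ∃ m, Odd m ∧ σ g0 ^ m = 1)
    (i : Fin 2) : σ g0 i i = e i := by
  obtain ⟨m, hm, h⟩ := he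
  obtain ⟨n, hn, h'⟩ := ho
  refine odd_root hA hW.two (hm.mul hn) ?_ (by rw [hσ.ent, (h i).2])
    (by rw [(h i).2]; exact hW.dne i hW.g0H)
  rw [pow_mul (e i), (h i).1, mul_comm, pow_mul, ← hM.pow hW.g0D hW.g0H, map_pow, h']
  simp

/-- **the characters are linear in the traces** -/
theorem dd_lin (hW : WD ℓ D H g0 rb) (hA : LR π) {ρ : G →* Mt A} (hρ : Lift π rb ρ)
    (hT : TameAt ℓ D I N τ φ ρ) {e : Fin 2 → A} (he : Tm π rb g0 e)
    (ho : ∃ m, Odd m ∧ ρ g0 ^ m = 1) {s : G} (hs : s ∈ D) :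
    IsUnit (e 0 - e 1) ∧
    (s ∈ H → trc ρ s = dd π (rb g0 0 0) g0 (trc ρ) (dtm ρ) 0 s +
        dd π (rb g0 0 0) g0 (trc ρ) (dtm ρ) 1 s ∧
      dtm ρ s = dd π (rb g0 0 0) g0 (trc ρ) (dtm ρ) 0 s *
        dd π (rb g0 0 0) g0 (trc ρ) (dtm ρ) 1 s ∧
      trc ρ (g0 * s) = e 0 * dd π (rb g0 0 0) g0 (trc ρ) (dtm ρ) 0 s +
        e 1 * dd π (rb g0 0 0) g0 (trc ρ) (dtm ρ) 1 s) ∧
    (s ∉ H → trc ρ s = 0 ∧ trc ρ (g0 * s) = 0) := by
  obtain ⟨P, Q, h1, h2, hP, hM⟩ := exists_mon hW hA hρ hT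
  have hσ := hρ.cj h1 h2 hP
  have eg := hM.eig hW hA hσ he (ho.imp fun m hm => ⟨hm.1, by
    rw [MonoidHom.comp_apply, ← map_pow, hm.2, map_one]⟩)
  rw [← trc_cj ρ P Q h1 h2, ← dtm_cj ρ P Q h1 h2]
  refine ⟨hA.loc _ ?_, fun hsH => ?_, fun hsH => ?_⟩
  · obtain ⟨m, -, h⟩ := he
    rw [map_sub, (h 0).2, (h 1).2, sub_ne_zero]; exact hW.ne
  · rw [hM.dd hW hA hσ hs hsH, hM.dd hW hA hσ hs hsH]
    simp only [trc, dtm, Matrix.trace_fin_two, Matrix.det_fin_two, hM.mul hW.g0D hW.g0H, eg,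
      hM.off s hs hsH 0 1 (by decide), zero_mul, sub_zero, and_self]
  · simp only [trc, Matrix.trace_fin_two, hM.mul hW.g0D hW.g0H, hM.dia s hs hsH, mul_zero,
      add_zero, and_self]

variable {ρ r : G →* Mt A}

/-- the type in terms of traces -/
theorem Pr.ty_iff (h : Pr π ℓ D I N H τ φ g0 rb ρ r) {e : Fin 2 → A} (he : Tm π rb g0 e)
    (ho : ∃ m, Odd m ∧ (ρ.prod r) g0 ^ m = 1) :
    (TY π (rb g0 0 0) g0 I H (trc ρ) (dtm ρ) (trc r) (dtm r) →
      ∀ s ∈ I, trc ρ s = trc r s ∧ trc ρ (g0 * s) = trc r (g0 * s) ∧ dtm ρ s = dtm r s) ∧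
    (trc ρ τ = trc r τ → trc ρ (g0 * τ) = trc r (g0 * τ) → dtm ρ τ = dtm r τ →
      TY π (rb g0 0 0) g0 I H (trc ρ) (dtm ρ) (trc r) (dtm r)) ∧
    (trc ρ (g0 * τ) - e 1 * trc ρ τ = trc r (g0 * τ) - e 1 * trc r τ → dtm ρ τ = dtm r τ →
      TY π (rb g0 0 0) g0 I H (trc ρ) (dtm ρ) (trc r) (dtm r)) := by
  have o1 : ∃ m, Odd m ∧ ρ g0 ^ m = 1 := ho.imp fun m hm => ⟨hm.1, congrArg Prod.fst hm.2⟩
  have o2 : ∃ m, Odd m ∧ r g0 ^ m = 1 := ho.imp fun m hm => ⟨hm.1, congrArg Prod.snd hm.2⟩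
  have L1 := fun s hs => dd_lin h.W h.A h.l1 (h.T.comp (MonoidHom.fst _ _)) he o1 (s := s) hs
  have L2 := fun s hs => dd_lin h.W h.A h.l2 (h.T.comp (MonoidHom.snd _ _)) he o2 (s := s) hs
  have hD := h.T.ID h.T.tau
  have three : trc ρ (g0 * τ) - e 1 * trc ρ τ = trc r (g0 * τ) - e 1 * trc r τ →
      dtm ρ τ = dtm r τ → TY π (rb g0 0 0) g0 I H (trc ρ) (dtm ρ) (trc r) (dtm r) := by
    intro e1 e2
    by_cases hτ : τ ∈ H
    · obtain ⟨u, a, -⟩ := L1 τ hD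
      obtain ⟨a1, a2, a3⟩ := a hτ
      obtain ⟨b1, b2, b3⟩ := (L2 τ hD).2.1 hτ
      obtain ⟨p1, p2, p3, -⟩ := h.unr hτ _ rfl
      have k0 : dd π (rb g0 0 0) g0 (trc ρ) (dtm ρ) 0 τ =
          dd π (rb g0 0 0) g0 (trc r) (dtm r) 0 τ := by
        apply u.mul_left_cancel
        linear_combination e1 - a3 + e 1 * a1 + b3 - e 1 * b1
      have hdet : IsUnit (dtm r τ) := by
        have : r τ * r τ⁻¹ = 1 := by rw [← map_mul, mul_inv_cancel, map_one]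
        exact Matrix.isUnit_det_of_right_inverse this
      have u0 : IsUnit (dd π (rb g0 0 0) g0 (trc r) (dtm r) 0 τ) :=
        isUnit_of_mul_isUnit_left (b2 ▸ hdet)
      have y0 : yy π (rb g0 0 0) g0 τ (trc ρ) (dtm ρ) (trc r) (dtm r) 0 = 1 := by
        rw [yy, k0, Ring.mul_inverse_cancel _ u0]
      have y1 : yy π (rb g0 0 0) g0 τ (trc ρ) (dtm ρ) (trc r) (dtm r) 1 = 1 := by
        apply hdet.mul_right_cancel
        rw [y0, one_mul] at p2
        rw [← p2, e2, one_mul]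
      refine p3.2 fun i => ?_
      fin_cases i
      · exact y0
      · exact y1
    · exact (h.ram hτ).2 e2
  refine ⟨fun ty s hs => ⟨(h.tr_det ty hs).1, ?_, (h.tr_det ty hs).2⟩,
    fun e1 e2 e3 => three (by rw [e1, e2]) e3, three⟩
  by_cases hsH : s ∈ H
  · exact (((L1 s (h.T.ID hs)).2.1 hsH).2.2.trans (by rw [ty s hs hsH, ty s hs hsH])).trans
      ((L2 s (h.T.ID hs)).2.1 hsH).2.2.symm
  · exact ((L1 s (h.T.ID hs)).2.2 hsH).2.trans ((L2 s (h.T.ID hs)).2.2 hsH).2.symm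

end

end Vale.Agent.P022D.W
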