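import Mathlib

/-!
# P022D, block W: cutting a discrete module by the types (abstract part)
-/

set_option linter.all false

open Finset

namespace Vale.Agent.P022D.W.Step

variable {B X : Type*} [CommRing B] [AddCommGroup X] [Module B X]

/-- the vectors of `K` killed by `J` are multiples of `τ` -/
def Cs (K : Submodule B X) (J : Set B) (τ : B) : Prop :=
  ∀ v ∈ K, (∀ c ∈ J, c • v = 0) → ∃ u ∈ K, v = τ • u

/-- the vectors of `K` killed by `J` -/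
def kl (K : Submodule B X) (J : Set B) : Submodule B X where
  carrier := {v | v ∈ K ∧ ∀ c ∈ J, c • v = 0}
  zero_mem' := ⟨K.zero_mem, fun _ _ => smul_zero _⟩
  add_mem' := fun h h' => ⟨K.add_mem h.1 h'.1, fun c hc => by
    rw [smul_add, h.2 c hc, h'.2 c hc, add_zero]⟩
  smul_mem' := fun a v h => ⟨K.smul_mem a h.1, fun c hc => by
    rw [smul_comm, h.2 c hc, smul_zero]⟩

theorem mem_kl {K : Submodule B X} {J : Set B} {v : X} :
    v ∈ kl K J ↔ v ∈ K ∧ ∀ c ∈ J, c • v = 0 := Iff.rfl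

theorem mem_kl1 {K : Submodule B X} {c : B} {v : X} : v ∈ kl K {c} ↔ v ∈ K ∧ c • v = 0 := by
  simp [mem_kl]

theorem kl_le (K : Submodule B X) (J : Set B) : kl K J ≤ K := fun _ h => h.1

theorem cs1 {K : Submodule B X} {c τ : B} :
    Cs K {c} τ ↔ ∀ v ∈ K, c • v = 0 → ∃ u ∈ K, v = τ • u := by
  simp [Cs]

theorem Cs.congr {K : Submodule B X} {J J' : Set B} {τ τ' : B} (h : Cs K J τ)
    (hJ : ∀ v ∈ K, (∀ c ∈ J', c • v = 0) → ∀ c ∈ J, c • v = 0)
    (hτ : ∀ v ∈ K, τ • v = τ' • v) : Cs K J' τ' := fun v hv h0 => by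
  obtain ⟨u, hu, e⟩ := h v hv (hJ v hv h0)
  exact ⟨u, hu, e.trans (hτ u hu)⟩

/-- one variable less -/
theorem Cs.drop {K : Submodule B X} {J : Set B} {τ w : B} {p : ℕ}
    (hw : ∀ v ∈ K, w ^ p • v = 0) (hτ : ∀ c ∈ J, ∀ v ∈ K, (c * τ) • v = 0)
    (h : Cs K (insert w J) (w ^ (p - 1) * τ)) : Cs K J τ := by
  have key : ∀ i ≤ p, ∀ v ∈ K, (∀ c ∈ J, c • v = 0) → w ^ i • v = 0 → ∃ u ∈ K, v = τ • u := by
    intro i
    induction i with
    | zero => exact fun _ v _ _ h0 => ⟨0, K.zero_mem, by simpa using h0⟩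
    | succ i ih =>
      intro hi v hv hJ h0
      obtain ⟨u, hu, e⟩ := h (w ^ i • v) (K.smul_mem _ hv) (by
        rintro c (rfl | hc)
        · rw [← mul_smul, ← pow_succ', h0]
        · rw [smul_comm, hJ c hc, smul_zero])
      obtain ⟨u', hu', e'⟩ := ih (by omega) (v - (w ^ (p - 1 - i) * τ) • u)
        (K.sub_mem hv (K.smul_mem _ hu)) (fun c hc => by
          rw [smul_sub, hJ c hc, ← mul_smul, mul_left_comm, mul_smul, hτ c hc u hu, smul_zero,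
            sub_zero]) (by
          rw [smul_sub, e, ← mul_smul, ← mul_assoc, ← pow_add, show i + (p - 1 - i) = p - 1 by omega,
            sub_self])
      refine ⟨u' + w ^ (p - 1 - i) • u, K.add_mem hu' (K.smul_mem _ hu), ?_⟩
      rw [smul_add, ← e', ← mul_smul, mul_comm τ, sub_add_cancel]
  exact fun v hv hJ => key p le_rfl v hv hJ (hw v hv)

/-- the local data of the cut, on a module `K` -/
structure Dat (K : Submodule B X) {L : Type*} (D : Finset L) (w : L → B) (p : L → ℕ)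
    (J : L → Set B) (τ : L → B) (pr : L → X → X) : Prop where
  one : ∀ l ∈ D, 1 ≤ p l
  nil : ∀ l ∈ D, ∀ v ∈ K, w l ^ p l • v = 0
  ann : ∀ l ∈ D, ∀ c ∈ J l, ∀ v ∈ K, (c * τ l) • v = 0
  stab : ∀ l ∈ D, ∀ v ∈ K, pr l v ∈ K
  com : ∀ l ∈ D, ∀ l' ∈ D, l ≠ l' → ∀ c ∈ insert (w l') (J l'), ∀ v ∈ K, c • v = 0 →
    c • pr l v = 0
  rep : ∀ l ∈ D, ∀ K' ≤ K, (∀ v ∈ K', pr l v ∈ K') → Cs K' {w l} (w l ^ (p l - 1)) →
    Cs K' (J l) (τ l)

theorem Dat.mono {K K' : Submodule B X} {L : Type*} {D D' : Finset L} {w : L → B} {p : L → ℕ}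
    {J : L → Set B} {τ : L → B} {pr : L → X → X} (h : Dat K D w p J τ pr) (hD : D' ⊆ D)
    (hK : K' ≤ K) (hs : ∀ l ∈ D', ∀ v ∈ K', pr l v ∈ K') : Dat K' D' w p J τ pr :=
  ⟨fun l hl => h.one l (hD hl), fun l hl v hv => h.nil l (hD hl) v (hK hv),
    fun l hl c hc v hv => h.ann l (hD hl) c hc v (hK hv), hs,
    fun l hl l' hl' e c hc v hv => h.com l (hD hl) l' (hD hl') e c hc v (hK hv),
    fun l hl K'' h1 => h.rep l (hD hl) K'' (h1.trans hK)⟩

theorem ann_prod {K : Submodule B X} {L : Type*} {D : Finset L} {J : L → Set B} {τ : L → B}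
    (h : ∀ l ∈ D, ∀ c ∈ J l, ∀ v ∈ K, (c * τ l) • v = 0) :
    ∀ c ∈ ⋃ l ∈ D, J l, ∀ v ∈ K, (c * ∏ l ∈ D, τ l) • v = 0 := by
  classical
  intro c hc v hv
  obtain ⟨l, hl, hc⟩ := Set.mem_iUnion₂.1 hc
  rw [← mul_prod_erase D τ hl, ← mul_assoc, mul_comm, mul_smul, h l hl c hc v hv, smul_zero]

theorem ann_w {K : Submodule B X} {L : Type*} {D : Finset L} {w : L → B} {p : L → ℕ}
    (h1 : ∀ l ∈ D, 1 ≤ p l) (h : ∀ l ∈ D, ∀ v ∈ K, w l ^ p l • v = 0) :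
    ∀ c ∈ w '' (D : Set L), ∀ v ∈ K, (c * ∏ l ∈ D, w l ^ (p l - 1)) • v = 0 := by
  classical
  rintro _ ⟨l, hl, rfl⟩ v hv
  rw [← mul_prod_erase D _ hl, ← mul_assoc, ← pow_succ', Nat.sub_add_cancel (h1 l hl), mul_comm,
    mul_smul, h l hl v hv, smul_zero]

/-- all variables of `E` less -/
theorem drops {K : Submodule B X} {L : Type*} {w : L → B} {p : L → ℕ} {J : Set B} {τ : B}
    (hτ : ∀ c ∈ J, ∀ v ∈ K, (c * τ) • v = 0) (E : Finset L) (h1 : ∀ l ∈ E, 1 ≤ p l)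
    (h : ∀ l ∈ E, ∀ v ∈ K, w l ^ p l • v = 0)
    (H : Cs K (w '' (E : Set L) ∪ J) ((∏ l ∈ E, w l ^ (p l - 1)) * τ)) : Cs K J τ := by
  classical
  induction E using Finset.induction_on with
  | empty => simpa using H
  | insert l E hl ih =>
    have a1 := fun l' hl' => h1 l' (mem_insert_of_mem (b := l) hl')
    have a2 := fun l' hl' => h l' (mem_insert_of_mem (b := l) hl')
    refine ih a1 a2 (Cs.drop (h l (mem_insert_self l E)) ?_ ?_)
    · rintro c (hc | hc) v hv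
      · rw [← mul_assoc, mul_comm, mul_smul, ann_w a1 a2 c hc v hv, smul_zero]
      · rw [mul_left_comm, mul_smul, hτ c hc v hv, smul_zero]
    · rwa [coe_insert, Set.image_insert_eq, prod_insert hl, Set.insert_union, mul_assoc] at H

/-- **Lemma U in several variables** -/
theorem multi {L : Type*} {w : L → B} {p : L → ℕ} {J : L → Set B} {τ : L → B} {pr : L → X → X}
    (D : Finset L) : ∀ K : Submodule B X, Dat K D w p J τ pr →
      Cs K (w '' (D : Set L)) (∏ l ∈ D, w l ^ (p l - 1)) →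
      Cs K (⋃ l ∈ D, J l) (∏ l ∈ D, τ l) := by
  classical
  induction D using Finset.induction_on with
  | empty => exact fun K _ _ v hv _ => ⟨v, hv, by simp⟩
  | insert l D hl ih =>
    intro K h H
    have hm := mem_insert_self l D
    have hs : D ⊆ insert l D := subset_insert l D
    have ne : ∀ l' ∈ D, l' ≠ l := fun l' h' e => hl (e ▸ h')
    have a1 := fun l' hl' => h.one l' (hs hl')
    have a2 := fun l' hl' => h.nil l' (hs hl')
    have aw : ∀ v ∈ K, (w l * w l ^ (p l - 1)) • v = 0 := fun v hv => by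
      rw [← pow_succ', Nat.sub_add_cancel (h.one l hm), h.nil l hm v hv]
    have aτ := ann_prod fun l' hl' => h.ann l' (hs hl')
    rw [coe_insert, Set.image_insert_eq, prod_insert hl] at H
    have H0 : Cs K (w '' (D : Set L)) (∏ l ∈ D, w l ^ (p l - 1)) :=
      Cs.drop (h.nil l hm) (ann_w a1 a2) H
    have H1 : Cs K {w l} (w l ^ (p l - 1)) := by
      refine drops (by simpa using aw) D a1 a2 ?_
      rwa [Set.union_singleton, mul_comm]
    have I0 := ih K (h.mono hs le_rfl fun l' hl' => h.stab l' (hs hl')) H0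
    have I1 := ih (kl K {w l}) (h.mono hs (kl_le _ _) fun l' hl' v hv =>
      mem_kl1.2 ⟨h.stab l' (hs hl') v hv.1, h.com l' (hs hl') l hm (ne l' hl') _
        (Set.mem_insert _ _) v hv.1 (mem_kl1.1 hv).2⟩) (fun v hv h0 => by
      obtain ⟨u, hu, e⟩ := H v hv.1 (by
        rintro c (rfl | hc)
        · exact (mem_kl1.1 hv).2
        · exact h0 c hc)
      exact ⟨w l ^ (p l - 1) • u, mem_kl1.2 ⟨K.smul_mem _ hu, by rw [← mul_smul, aw u hu]⟩, by
        rw [e, mul_comm, mul_smul]⟩)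
    have R := h.rep l hm (kl K (⋃ l ∈ D, J l)) (kl_le _ _) (fun v hv =>
      ⟨h.stab l hm v hv.1, fun c hc => by
        obtain ⟨l', hl', hc'⟩ := Set.mem_iUnion₂.1 hc
        exact h.com l hm l' (hs hl') (ne l' hl').symm c (Set.mem_insert_of_mem _ hc') v hv.1
          (hv.2 c hc)⟩) (cs1.2 fun v hv h0 => by
      obtain ⟨u, hu, e⟩ := I1 v (mem_kl1.2 ⟨hv.1, h0⟩) hv.2
      obtain ⟨u', hu', e'⟩ := cs1.1 H1 u hu.1 (mem_kl1.1 hu).2
      exact ⟨(∏ l ∈ D, τ l) • u', ⟨K.smul_mem _ hu', fun c hc => by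
        rw [← mul_smul, aτ c hc u' hu']⟩, by rw [e, e', smul_comm]⟩)
    intro v hv h0
    obtain ⟨u, hu, e⟩ := R v ⟨hv, fun c hc => by
      obtain ⟨l', hl', hc'⟩ := Set.mem_iUnion₂.1 hc
      exact h0 c (Set.mem_iUnion₂.2 ⟨l', hs hl', hc'⟩)⟩
      (fun c hc => h0 c (Set.mem_iUnion₂.2 ⟨l, hm, hc⟩))
    obtain ⟨u', hu', e'⟩ := I0 u hu.1 hu.2
    exact ⟨u', hu', by rw [e, e', prod_insert hl, mul_smul]⟩

/-! ### the cut -/

/-- `Z` is divisible by `π` -/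
def Dv (π : B) (Z : Submodule B X) : Prop := ∀ v ∈ Z, ∃ u ∈ Z, v = π • u

/-- the module after the cut is `τ Z` -/
theorem cut_eq {π τ : B} {Z : Submodule B X} {J : Set B} (hd : Dv π Z)
    (ht : ∀ v ∈ Z, ∃ k : ℕ, π ^ k • v = 0) (hτ : ∀ c ∈ J, ∀ v ∈ Z, (c * τ) • v = 0)
    (h : Cs (kl Z {π}) J τ) : Cs Z J τ := by
  have dv : ∀ k : ℕ, ∀ v ∈ Z, ∃ u ∈ Z, v = π ^ k • u := by
    intro k
    induction k with
    | zero => exact fun v hv => ⟨v, hv, by simp⟩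
    | succ k ih =>
      intro v hv
      obtain ⟨u, hu, rfl⟩ := ih v hv
      obtain ⟨u', hu', rfl⟩ := hd u hu
      exact ⟨u', hu', by rw [pow_succ, mul_smul]⟩
  have key : ∀ k : ℕ, ∀ v ∈ Z, (∀ c ∈ J, c • v = 0) → π ^ k • v = 0 → ∃ u ∈ Z, v = τ • u := by
    intro k
    induction k with
    | zero => exact fun v _ _ h0 => ⟨0, Z.zero_mem, by simpa using h0⟩
    | succ k ih =>
      intro v hv hJ h0
      obtain ⟨u, hu, e⟩ := h (π ^ k • v) (mem_kl1.2 ⟨Z.smul_mem _ hv, by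
        rw [← mul_smul, ← pow_succ', h0]⟩) fun c hc => by rw [smul_comm, hJ c hc, smul_zero]
      obtain ⟨u', hu', rfl⟩ := dv k u hu.1
      obtain ⟨x, hx, e'⟩ := ih (v - τ • u') (Z.sub_mem hv (Z.smul_mem _ hu')) (fun c hc => by
        rw [smul_sub, hJ c hc, ← mul_smul, hτ c hc u' hu', sub_zero]) (by
        rw [smul_sub, e, smul_comm, sub_self])
      exact ⟨x + u', Z.add_mem hx hu', by rw [smul_add, ← e', sub_add_cancel]⟩
  intro v hv hJ
  obtain ⟨k, hk⟩ := ht v hv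
  exact key k v hv hJ hk

/-- **the cut is divisible** -/
theorem cut_dv {π τ : B} {Z : Submodule B X} {J : Set B} (hd : Dv π Z)
    (ht : ∀ v ∈ Z, ∃ k : ℕ, π ^ k • v = 0) (hτ : ∀ c ∈ J, ∀ v ∈ Z, (c * τ) • v = 0)
    (h : Cs (kl Z {π}) J τ) : Dv π (kl Z J) := fun v hv => by
  obtain ⟨u, hu, e⟩ := cut_eq hd ht hτ h v hv.1 hv.2
  obtain ⟨u', hu', rfl⟩ := hd u hu
  exact ⟨τ • u', ⟨Z.smul_mem _ hu', fun c hc => by rw [← mul_smul, hτ c hc u' hu']⟩, by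
    rw [e, smul_comm]⟩

/-- **invariants are norms after the cut**: `K` = the invariants in `Y`, `N` = the norm -/
theorem cut_nm {τ : B} {Y K : Submodule B X} {J : Set B} (N : X → X)
    (hN : ∀ u ∈ Y, N (τ • u) = τ • N u) (hτ : ∀ c ∈ J, ∀ v ∈ Y, (c * τ) • v = 0)
    (hK : ∀ v ∈ K, ∃ u ∈ Y, v = N u) (h : Cs K J τ) :
    ∀ v ∈ kl K J, ∃ u ∈ kl Y J, v = N u := fun v hv => by
  obtain ⟨u, hu, e⟩ := h v hv.1 hv.2
  obtain ⟨u', hu', rfl⟩ := hK u hu
  exact ⟨τ • u', ⟨Y.smul_mem _ hu', fun c hc => by rw [← mul_smul, hτ c hc u' hu']⟩, by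
    rw [hN u' hu', e]⟩

/-! ### the local replacements -/

theorem root (S : Set X) {z : B} (hz : ∀ v ∈ S, z • v ∈ S) {k p : ℕ} (hk : 1 ≤ k) (hp : 2 ≤ p)
    (h : ∀ v ∈ S, z ^ k • v = 0 → ∃ u ∈ S, v = (z ^ k) ^ (p - 1) • u) :
    ∀ v ∈ S, z • v = 0 → ∃ u ∈ S, v = z ^ (k * p - 1) • u := by
  obtain ⟨k, rfl⟩ : ∃ j, k = j + 1 := ⟨k - 1, by omega⟩
  obtain ⟨p, rfl⟩ : ∃ j, p = j + 2 := ⟨p - 2, by omega⟩
  have hzp : ∀ i : ℕ, ∀ v ∈ S, z ^ i • v ∈ S := fun i => by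
    induction i with
    | zero => simp
    | succ i ih => exact fun v hv => by rw [pow_succ, mul_smul]; exact ih _ (hz v hv)
  intro v hv h0
  obtain ⟨u, hu, e⟩ := h v hv (by rw [pow_succ, mul_smul, h0, smul_zero])
  rw [← pow_mul, show p + 2 - 1 = p + 1 from rfl] at e
  obtain ⟨u', hu', e'⟩ := h (z ^ ((k + 1) * p + 1) • u) (hzp _ u hu) (by
    rw [← mul_smul, ← pow_add, show k + 1 + ((k + 1) * p + 1) = (k + 1) * (p + 1) + 1 by ring,
      pow_succ', mul_smul, ← e, h0])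
  rw [← pow_mul, show p + 2 - 1 = p + 1 from rfl] at e'
  refine ⟨u', hu', ?_⟩
  rw [show (k + 1) * (p + 2) - 1 = k + (k + 1) * (p + 1) by
      rw [show (k + 1) * (p + 2) = k + (k + 1) * (p + 1) + 1 by ring]; rfl,
    pow_add, mul_smul, ← e', ← mul_smul, ← pow_add,
    show k + ((k + 1) * p + 1) = (k + 1) * (p + 1) by ring, e]

theorem sub_one_pow (x : B) (a : ℕ) : (2 : B) ∣ (x - 1) ^ 2 ^ a - (x ^ 2 ^ a - 1) := by
  induction a with
  | zero => simp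
  | succ a ih =>
    obtain ⟨c, hc⟩ := ih
    refine ⟨2 * c ^ 2 + 2 * c * (x ^ 2 ^ a - 1) + 1 - x ^ 2 ^ a, ?_⟩
    rw [pow_succ, pow_mul, pow_mul, eq_add_of_sub_eq hc]
    ring

theorem sub_one_norm (x : B) (a : ℕ) :
    (2 : B) ∣ (x - 1) ^ (2 ^ a - 1) - ∑ i ∈ range (2 ^ a), x ^ i := by
  induction a with
  | zero => simp
  | succ a ih =>
    obtain ⟨c, hc⟩ := ih
    obtain ⟨d, hd⟩ := sub_one_pow x a
    have H : 1 ≤ 2 ^ a := Nat.one_le_two_pow
    rw [show 2 ^ (a + 1) - 1 = 2 ^ a - 1 + 2 ^ a by rw [pow_succ]; omega, pow_add,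
      show 2 ^ (a + 1) = 2 ^ a + 2 ^ a by rw [pow_succ]; omega, sum_range_add,
      eq_add_of_sub_eq hc, eq_add_of_sub_eq hd]
    simp only [pow_add, ← mul_sum]
    exact ⟨2 * c * d + c * (x ^ 2 ^ a - 1) + (d - 1) * ∑ i ∈ range (2 ^ a), x ^ i, by ring⟩

theorem eq_of_two {x y : B} {v : X} (h2 : (2 : B) • v = 0) (h : (2 : B) ∣ x - y) :
    x • v = y • v := by
  obtain ⟨c, hc⟩ := h
  rw [eq_add_of_sub_eq hc, add_smul, mul_comm, mul_smul, h2, smul_zero, zero_add]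

theorem pow_congr {K : Submodule B X} {x y : B} (h : ∀ v ∈ K, x • v = y • v) (i : ℕ) :
    ∀ v ∈ K, x ^ i • v = y ^ i • v := by
  induction i with
  | zero => simp
  | succ i ih =>
    intro v hv
    rw [pow_succ, pow_succ, mul_smul, h v hv, ih _ (K.smul_mem _ hv), mul_smul]

/-- an odd power generates the same group -/
theorem odd_pow {K : Submodule B X} (h2 : ∀ v ∈ K, (2 : B) • v = 0) {t : B} {a k : ℕ}
    (hk : Odd k) (ht : ∀ v ∈ K, t ^ 2 ^ a • v = v)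
    (h : Cs K {t ^ k - 1} ((t ^ k - 1) ^ (2 ^ a - 1))) : Cs K {t - 1} ((t - 1) ^ (2 ^ a - 1)) := by
  rw [cs1] at h ⊢
  intro v hv h0
  obtain ⟨u, hu, e⟩ := h v hv (by rw [← geom_sum_mul, mul_smul, h0, smul_zero])
  exact ⟨(∑ i ∈ range k, t ^ i) ^ (2 ^ a - 1) • u, K.smul_mem _ hu, by
    rw [e, ← geom_sum_mul, mul_pow, mul_comm, mul_smul]⟩

/-- **inert case**; `b = 0` is allowed (ramified case, central characters) -/
theorem rep_inert {K : Submodule B X} (h2 : ∀ v ∈ K, (2 : B) • v = 0) {w θ z τ : B} {a b k : ℕ}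
    (ha : 1 ≤ a) (hw : ∀ v ∈ K, w • v = (θ ^ (2 ^ b * k) - 1) • v)
    (hz : ∀ v ∈ K, z • v = (θ - 1) • v)
    (hτ : ∀ v ∈ K, τ • v = (∑ i ∈ range (2 ^ (a + b)), θ ^ i) • v)
    (h : Cs K {w} (w ^ (2 ^ a - 1))) : Cs K {z} τ := by
  rw [cs1] at h ⊢
  intro v hv h0
  rw [hz v hv] at h0
  obtain ⟨u, hu, e⟩ := root (K : Set X) (z := θ - 1) (fun v hv => K.smul_mem _ hv)
    (k := 2 ^ b) (p := 2 ^ a) Nat.one_le_two_pow
    (le_trans (by norm_num) (Nat.pow_le_pow_right two_pos ha)) (fun v hv h0 => by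
      have e0 : ∀ v ∈ K, w • v = ((θ - 1) ^ 2 ^ b * ∑ i ∈ range k, (θ ^ 2 ^ b) ^ i) • v :=
        fun v hv => by
          rw [hw v hv, pow_mul, ← geom_sum_mul, mul_comm, mul_smul, mul_smul,
            eq_of_two (h2 _ (K.smul_mem _ hv)) (sub_one_pow θ b)]
      obtain ⟨u, hu, e⟩ := h v hv (by rw [e0 v hv, mul_comm, mul_smul, h0, smul_zero])
      exact ⟨_, K.smul_mem ((∑ i ∈ range k, (θ ^ 2 ^ b) ^ i) ^ (2 ^ a - 1)) hu, by
        rw [e, pow_congr e0 _ u hu, mul_pow, mul_smul]⟩) v hv h0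
  exact ⟨u, hu, by
    rw [e, hτ u hu, ← pow_add, add_comm b a, eq_of_two (h2 u hu) (sub_one_norm θ (a + b))]⟩

/-- **split case**: `pr` is the projection on degree zero of a grading by `ℤ / 2 ^ a`, `η` has
degree one and `s` degree zero -/
theorem rep_split {K : Submodule B X} (h2 : ∀ v ∈ K, (2 : B) • v = 0) {w s η z₁ z₂ τ : B}
    {a k : ℕ} (ha : 1 ≤ a) (pr : X →+ X) (hK : ∀ v ∈ K, pr v ∈ K)
    (hη : ∀ v ∈ K, η ^ 2 ^ a • v = v) (hpp : ∀ v ∈ K, pr (pr v) = pr v)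
    (hps : ∀ v ∈ K, pr (s • v) = s • pr v)
    (hpη : ∀ v ∈ K, ∀ i, 0 < i → i < 2 ^ a → pr (η ^ i • pr v) = 0)
    (hsum : ∀ v ∈ K, ∑ i ∈ range (2 ^ a), η ^ i • pr (η ^ (2 ^ a - i) • v) = v)
    (hw : ∀ v ∈ K, w • v = ((s * η ^ 2) ^ k - 1) • v)
    (hz : ∀ v ∈ K, z₁ • v = 0 → z₂ • v = 0 → s • v = v ∧ η • v = v)
    (hτ : ∀ v ∈ K, τ • v = ((∑ i ∈ range (2 ^ a), η ^ i) * ∑ i ∈ range (2 ^ a), s ^ i) • v)
    (h : Cs K {w} (w ^ (2 ^ a - 1))) : Cs K {z₁, z₂} τ := by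
  obtain ⟨a, rfl⟩ : ∃ j, a = j + 1 := ⟨a - 1, by omega⟩
  have H1 : 1 ≤ 2 ^ a := Nat.one_le_two_pow
  have hpk : ∀ i : ℕ, ∀ v ∈ K, pr (s ^ i • v) = s ^ i • pr v := fun i => by
    induction i with
    | zero => simp
    | succ i ih =>
      intro v hv
      rw [pow_succ', mul_smul, hps _ (K.smul_mem _ hv), ih v hv, mul_smul]
  set g := s * η ^ 2 with hg
  have hge : ∀ v ∈ K, g ^ 2 ^ a • v = s ^ 2 ^ a • v := fun v hv => by
    rw [hg, mul_pow, ← pow_mul, ← pow_succ', mul_smul, hη v hv]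
  have hφ : ∀ v ∈ K, pr v = v → pr ((∑ i ∈ range (2 ^ a), g ^ i) • v) = v := by
    intro v hK' hv
    rw [← Nat.sub_add_cancel H1, sum_range_succ', add_smul, map_add, pow_zero, one_smul, hv,
      sum_smul, map_sum, sum_eq_zero, zero_add]
    intro i hi
    rw [hg, mul_pow, mul_smul, hpk _ _ (K.smul_mem _ hK'), ← pow_mul, ← hv,
      hpη _ hK' _ (by omega) (by have := mem_range.1 hi; rw [pow_succ]; omega), smul_zero]
  have h' : ∀ v ∈ K, (g - 1) • v = 0 → ∃ u ∈ K, v = (∑ i ∈ range (2 ^ (a + 1)), g ^ i) • u := by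
    intro v hv h0
    obtain ⟨u, hu, e⟩ := cs1.1 h v hv (by rw [hw v hv, ← geom_sum_mul, mul_smul, h0, smul_zero])
    refine ⟨(∑ i ∈ range k, g ^ i) ^ (2 ^ (a + 1) - 1) • u, K.smul_mem _ hu, ?_⟩
    rw [e, pow_congr hw _ u hu, ← geom_sum_mul, mul_pow, mul_comm, mul_smul,
      eq_of_two (h2 _ (K.smul_mem _ hu)) (sub_one_norm g (a + 1))]
  have R := root {v | v ∈ K ∧ pr v = v} (z := s - 1) (fun v hv => ⟨K.smul_mem _ hv.1, by
    rw [sub_smul, one_smul, map_sub, hps v hv.1, hv.2]⟩) (k := 2 ^ a) (p := 2) H1 le_rfl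
    (fun v hv h0 => by
      rw [eq_of_two (h2 v hv.1) (sub_one_pow s a)] at h0
      obtain ⟨u, hu, e⟩ := h' ((∑ i ∈ range (2 ^ a), g ^ i) • v) (K.smul_mem _ hv.1) (by
        rw [← mul_smul, mul_comm, geom_sum_mul, sub_smul, hge v hv.1, ← sub_smul, h0])
      have hu' := K.smul_mem (∑ i ∈ range (2 ^ a), g ^ i) hu
      refine ⟨pr ((∑ i ∈ range (2 ^ a), g ^ i) • u), ⟨hK _ hu', hpp _ hu'⟩, ?_⟩
      have e1 := congrArg pr e
      rw [hφ v hv.1 hv.2, show 2 ^ (a + 1) = 2 ^ a + 2 ^ a by rw [pow_succ]; omega,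
        sum_range_add] at e1
      simp only [pow_add, ← mul_sum] at e1
      rw [add_smul, mul_smul, hge _ hu', map_add, hpk _ _ hu'] at e1
      rw [pow_one, eq_of_two (y := 1 + s ^ 2 ^ a) (h2 _ (hK _ hu')) (by
        obtain ⟨c, hc⟩ := sub_one_pow s a
        exact ⟨c - 1, by rw [eq_add_of_sub_eq hc]; ring⟩), add_smul, one_smul]
      exact e1)
  intro v hv h0
  obtain ⟨hs, he⟩ := hz v hv (h0 _ (by simp)) (h0 _ (by simp))
  have hei : ∀ i : ℕ, η ^ i • v = v := fun i => by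
    induction i with
    | zero => simp
    | succ i ih => rw [pow_succ, mul_smul, he, ih]
  obtain ⟨u, hu, e⟩ := R (pr v) ⟨hK v hv, hpp v hv⟩ (by
    rw [sub_smul, one_smul, ← hps v hv, hs, sub_self])
  refine ⟨u, hu.1, ?_⟩
  rw [hτ u hu.1, mul_smul, ← eq_of_two (h2 u hu.1) (sub_one_norm s (a + 1)), pow_succ 2 a, ← e,
    sum_smul, ← pow_succ]
  conv_lhs => rw [← hsum v hv]
  exact sum_congr rfl fun i _ => by rw [hei]

/-- the element which kills `θ - θ₀` -/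
def gs (θ θ₀ : B) (n : ℕ) : B := ∑ i ∈ range n, θ ^ i * θ₀ ^ (n - 1 - i)

theorem gs_ann {θ θ₀ : B} {n : ℕ} {v : X} (h : θ ^ n • v = θ₀ ^ n • v) :
    ((θ - θ₀) * gs θ θ₀ n) • v = 0 := by
  rw [gs, mul_comm, geom_sum₂_mul, sub_smul, h, sub_self]

theorem gs_red {K : Submodule B X} {θ θ₀ : B} (h : ∀ v ∈ K, θ₀ • v = v) (n : ℕ) :
    ∀ v ∈ K, gs θ θ₀ n • v = (∑ i ∈ range n, θ ^ i) • v := fun v hv => by
  rw [gs, sum_smul, sum_smul]
  refine sum_congr rfl fun i _ => ?_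
  rw [mul_smul, pow_congr (y := 1) (fun v hv => by rw [h v hv, one_smul]) _ v hv, one_pow, one_smul]

/-! ### the primary part -/

/-- the vectors of `K` killed by a power of `m` -/
def prim (K : Submodule B X) (m : Ideal B) : Submodule B X where
  carrier := {v | v ∈ K ∧ ∃ n : ℕ, ∀ a ∈ m ^ n, a • v = 0}
  zero_mem' := ⟨K.zero_mem, 0, fun _ _ => smul_zero _⟩
  add_mem' := by
    rintro v u ⟨h1, n, hn⟩ ⟨h2, k, hk⟩
    exact ⟨K.add_mem h1 h2, n + k, fun a ha => by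
      rw [smul_add, hn a (Ideal.pow_le_pow_right (by omega) ha),
        hk a (Ideal.pow_le_pow_right (by omega) ha), add_zero]⟩
  smul_mem' := by
    rintro c v ⟨h1, n, hn⟩
    exact ⟨K.smul_mem c h1, n, fun a ha => by rw [smul_comm, hn a ha, smul_zero]⟩

/-- Fitting decomposition of a vector with finite orbit -/
theorem fit (m : Ideal B) [hm : m.IsMaximal] {u : X} (hf : Finite (Submodule.span B {u})) :
    ∃ r : B, (∃ n : ℕ, ∀ a ∈ m ^ n, a • r • u = 0) ∧ ∃ t : B, t - 1 ∈ m ∧ t • (u - r • u) = 0 := by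
  let I : Ideal B := Ideal.torsionOf B X u
  have hq : Finite (B ⧸ I) :=
    Finite.of_equiv _ (Ideal.quotTorsionOfEquivSpanSingleton B X u).symm.toEquiv
  have hfin : Finite (Ideal (B ⧸ I)) := Finite.of_injective _ SetLike.coe_injective
  obtain ⟨n, k, hne, e⟩ := Finite.exists_ne_map_eq_of_infinite
    fun n : ℕ => (m ^ n).map (Ideal.Quotient.mk I)
  wlog hlt : n < k generalizing n k
  · exact this k n hne.symm e.symm (by omega)
  have e1 : m ^ n ≤ m * m ^ n ⊔ I := fun a ha => by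
    have h1 : Ideal.Quotient.mk I a ∈ (m ^ k).map (Ideal.Quotient.mk I) :=
      e ▸ Ideal.mem_map_of_mem _ ha
    have h2 := Ideal.mem_comap.2 h1
    rw [Ideal.comap_map_of_surjective _ Ideal.Quotient.mk_surjective, ← RingHom.ker_eq_comap_bot,
      Ideal.mk_ker] at h2
    have h3 : m ^ k ⊔ I ≤ m * m ^ n ⊔ I :=
      sup_le_sup_right (by rw [← pow_succ']; exact Ideal.pow_le_pow_right hlt) _
    exact h3 h2
  let f : B →ₗ[B] Submodule.span B {u} := LinearMap.toSpanSingleton B _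
    ⟨u, Submodule.mem_span_singleton_self u⟩
  obtain ⟨t, ht, h0⟩ := Submodule.exists_sub_one_mem_and_smul_eq_zero_of_fg_of_le_smul m
    (Submodule.map f (m ^ n)) (Module.Finite.iff_fg.1 inferInstance) (by
      rintro _ ⟨a, ha, rfl⟩
      obtain ⟨b, hb, c, hc, rfl⟩ := Submodule.mem_sup.1 (e1 ha)
      have hc0 : f c = 0 := Subtype.ext hc
      rw [map_add, hc0, add_zero, ← Submodule.map_smul'']
      exact Submodule.mem_map_of_mem hb)
  have hcop : Ideal.span {t} ⊔ m ^ n = ⊤ := by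
    refine Ideal.sup_pow_eq_top (Ideal.eq_top_iff_one _ |>.2 ?_)
    exact Submodule.mem_sup.2 ⟨t, Ideal.mem_span_singleton_self t, -(t - 1), m.neg_mem ht, by ring⟩
  obtain ⟨x, hx, y, hy, exy⟩ := Submodule.mem_sup.1 ((Ideal.eq_top_iff_one _).1 hcop)
  obtain ⟨c, rfl⟩ := Ideal.mem_span_singleton'.1 hx
  have h1 : ∀ a ∈ m ^ n, t • a • u = 0 := fun a ha =>
    congrArg Subtype.val (h0 _ (Submodule.mem_map_of_mem ha))
  refine ⟨c * t, ⟨n, fun a ha => by rw [smul_comm, mul_smul, h1 a ha, smul_zero]⟩, t, ht, ?_⟩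
  have h2 := h1 y hy
  rwa [eq_sub_of_add_eq' exy, sub_smul, one_smul] at h2

/-- norms pass to the primary part -/
theorem nm_prim (m : Ideal B) [m.IsMaximal] {Y : Submodule B X}
    (hf : ∀ u ∈ Y, Finite (Submodule.span B {u})) (N : X →+ X)
    (hN : ∀ (a : B), ∀ u ∈ Y, N (a • u) = a • N u) {v u : X} (hv : ∃ n : ℕ, ∀ a ∈ m ^ n, a • v = 0)
    (hu : u ∈ Y) (e : v = N u) : ∃ r : B, r • u ∈ prim Y m ∧ v = N (r • u) := by
  obtain ⟨r, ⟨n, hn⟩, t, ht, h0⟩ := fit m (hf u hu)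
  obtain ⟨k, hk⟩ := hv
  refine ⟨r, ⟨Y.smul_mem r hu, n, hn⟩, ?_⟩
  have hd := Y.sub_mem hu (Y.smul_mem r hu)
  have h1 : t • (v - N (r • u)) = 0 := by rw [e, ← map_sub, ← hN t _ hd, h0, map_zero]
  have h2 : (1 - t) ^ (n + k) • (v - N (r • u)) = 0 := by
    have hm : (1 - t) ^ (n + k) ∈ m ^ (n + k) :=
      Ideal.pow_mem_pow (by rw [← neg_sub]; exact m.neg_mem ht) _
    rw [smul_sub, hk _ (Ideal.pow_le_pow_right (by omega) hm), ← hN _ _ (Y.smul_mem r hu),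
      hn _ (Ideal.pow_le_pow_right (by omega) hm), map_zero, sub_zero]
  have h3 : ∀ j : ℕ, (1 - t) ^ j • (v - N (r • u)) = v - N (r • u) := fun j => by
    induction j with
    | zero => simp
    | succ j ih => rw [pow_succ, mul_smul, sub_smul, h1, sub_zero, one_smul, ih]
  rw [h3] at h2
  exact sub_eq_zero.1 h2

end Vale.Agent.P022D.W.Step
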