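import Vale.Agent.P022.H443.Tame
import Vale.Agent.P022.H20.Frob

/-!
# P022D, block W: the tame structure of a decomposition group at an odd prime

`Od P U` is the group of the inertia elements of odd order modulo `U`.
-/

set_option linter.all false

open NumberField

noncomputable section

namespace Vale.Agent.P022D.W

open Vale.Agent.P022 Vale.Agent.P022.H443

section fin

variable {R : Type*} [CommRing R] [IsDedekindDomain R]
  {G : Type*} [Group G] [MulSemiringAction G R]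

theorem odd_of_in1 [FaithfulSMul G R] [Finite G] {P : Ideal R} [hP : P.IsPrime] (hP0 : P ≠ ⊥)
    (h2 : (2 : R) ∉ P) {g : G} (h : InI1 P g) : ∃ m, Odd m ∧ g ^ m = 1 := by
  obtain ⟨k, m, hm, e⟩ := Nat.exists_eq_two_pow_mul_odd (orderOf_pos g).ne'
  refine ⟨m, hm, eq_one_of_pow hP0 h2 (h.pow m) k ?_⟩
  rw [← pow_mul, mul_comm, ← e, pow_orderOf_eq_one]

theorem exists_chi {P : Ideal R} [hP : P.IsPrime] (hP0 : P ≠ ⊥) :
    ∃ χ : (inert P : Subgroup G) →* R ⧸ P, ∀ g, χ g = 1 → InI1 P (g : G) := by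
  classical
  have hex : ∀ g : (inert P : Subgroup G), ∃ u : R, ∀ x ∈ P, (g : G) • x - u * x ∈ P ^ 2 :=
    fun g => exists_scalar hP0 g.2
  choose u hu using hex
  refine ⟨{ toFun := fun g => Ideal.Quotient.mk P (u g)
            map_one' := by
              rw [← map_one (Ideal.Quotient.mk P), Ideal.Quotient.eq]
              refine scalar_unique hP0 (g := (1 : G)) (hu 1) ?_
              intro x _; simp
            map_mul' := by
              intro g h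
              rw [← map_mul, Ideal.Quotient.eq]
              exact scalar_unique hP0 (hu (g * h)) (scalar_mul g.2 h.2 (hu g) (hu h)) }, ?_⟩
  intro g hg
  have h1 : u g - 1 ∈ P := by
    rw [← Ideal.Quotient.eq, map_one]; exact hg
  refine ⟨g.2, fun x hx => ?_⟩
  have h3 : (u g - 1) * x ∈ P ^ 2 := by
    rw [pow_two]; exact Ideal.mul_mem_mul h1 hx
  have := Ideal.add_mem _ (hu g x hx) h3
  have e : (g : G) • x - u g * x + (u g - 1) * x = (g : G) • x - x := by ring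
  rwa [e] at this

theorem rel_in1 {P : Ideal R} [hP : P.IsPrime] (hP0 : P ≠ ⊥) {ℓ : ℕ} (hℓ : ℓ ≠ 0) {σ τ : G}
    (hσ : ∀ x : R, σ • x - x ^ ℓ ∈ P) (hτ : InI P τ) : InI1 P (σ * τ * σ⁻¹ * (τ ^ ℓ)⁻¹) := by
  obtain ⟨u, hu⟩ := exists_scalar hP0 hτ
  have hσP : ∀ x ∈ P, σ • x ∈ P := by
    intro x hx
    have := P.add_mem (hσ x) (Ideal.pow_mem_of_mem P hx ℓ (Nat.pos_of_ne_zero hℓ))
    simpa using this
  have hσP' : ∀ x ∈ P, σ⁻¹ • x ∈ P := by
    intro x hx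
    have h := hσ (σ⁻¹ • x)
    rw [smul_inv_smul] at h
    have h' := P.sub_mem hx h
    rw [sub_sub_cancel] at h'
    exact hP.mem_of_pow_mem ℓ h'
  have main : ∀ x ∈ P, (σ * τ * σ⁻¹) • x - (τ ^ ℓ) • x ∈ P ^ 2 := by
    intro x hx
    have hy := hσP' x hx
    have h1 : σ • (τ • (σ⁻¹ • x) - u * (σ⁻¹ • x)) ∈ P ^ 2 := smul_mem_pow hσP 2 (hu _ hy)
    have e1 : σ • (τ • (σ⁻¹ • x) - u * (σ⁻¹ • x)) = (σ * τ * σ⁻¹) • x - (σ • u) * x := by
      rw [smul_sub, smul_mul', smul_inv_smul, mul_smul, mul_smul]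
    rw [e1] at h1
    have h3 : (σ • u - u ^ ℓ) * x ∈ P ^ 2 := by
      rw [pow_two]; exact Ideal.mul_mem_mul (hσ u) hx
    have h4 := scalar_pow hτ hu ℓ x hx
    have e : (σ * τ * σ⁻¹) • x - (τ ^ ℓ) • x
        = ((σ * τ * σ⁻¹) • x - (σ • u) * x) + (σ • u - u ^ ℓ) * x
          - ((τ ^ ℓ) • x - u ^ ℓ * x) := by ring
    rw [e]
    exact Ideal.sub_mem _ (Ideal.add_mem _ h1 h3) h4
  have hconj : InI P (σ * τ * σ⁻¹) := by
    intro x
    have h := hσP _ (hτ (σ⁻¹ • x))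
    rw [smul_sub, smul_inv_smul] at h
    rwa [mul_smul, mul_smul]
  have hpi : InI P ((τ ^ ℓ)⁻¹) := (hτ.pow ℓ).inv
  refine ⟨hconj.mul hpi, fun x hx => ?_⟩
  have h := main ((τ ^ ℓ)⁻¹ • x) (hpi.smul_mem hx)
  rwa [smul_inv_smul, ← mul_smul] at h

end fin

/-- `g` has odd order modulo `U` -/
def OddMod (U : Subgroup GQ) (g : GQ) : Prop := ∃ m, Odd m ∧ g ^ m ∈ U

/-- the tame character at finite level -/
theorem chi_data (U : Subgroup GQ) [hn : U.Normal] (hU : IsOpen (U : Set GQ))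
    {ℓ : ℕ} (hℓ : ℓ.Prime) (hℓ2 : ℓ ≠ 2) {P : Ideal (𝓞 Qb)} (hP : P.IsPrime)
    (hPℓ : (ℓ : 𝓞 Qb) ∈ P) :
    ∃ (k : Type) (_ : CommRing k) (_ : IsDomain k) (χ : inP P →* k), (Set.range χ).Finite ∧
      (∀ g, χ g = 1 → OddMod U g) ∧ (∀ g : inP P, (g : GQ) ∈ U → χ g = 1) ∧
      ∀ σ : GQ, (∀ x : 𝓞 Qb, σ • x - x ^ ℓ ∈ P) → ∀ τ ∈ inP P,
        OddMod U (σ * τ * σ⁻¹ * (τ ^ ℓ)⁻¹) := by
  let f := QuotientGroup.mk' U
  have hfk : f.ker = U := QuotientGroup.ker_mk' U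
  have hf : IsOpen (f.ker : Set GQ) := by rw [hfk]; exact hU
  have := galQb
  have := cut_fin hf
  have := cut_gal hf
  have : NumberField (cut f) :=
    { to_charZero := inferInstance, to_finiteDimensional := inferInstance }
  let j : cut f →+* Qb := algebraMap (cut f) Qb
  let m : 𝓞 (cut f) →+* 𝓞 Qb := RingOfIntegers.mapRingHom j
  let q : GQ →* (cut f ≃ₐ[ℚ] cut f) := AlgEquiv.restrictNormalHom (cut f)
  have hq : ∀ (g : GQ) (x : cut f), ((q g x : cut f) : Qb) = g x := fun g x =>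
    AlgEquiv.restrictNormal_commutes g (cut f) x
  have hm : ∀ (g : GQ) (x : 𝓞 (cut f)), m (q g • x) = g • m x := by
    intro g x
    apply RingOfIntegers.ext
    exact hq g _
  have hker : ∀ g, q g = 1 ↔ g ∈ U := by
    intro g
    have e : g ∈ U ↔ g ∈ (cut f).fixingSubgroup := by rw [cut_fix hf, hfk]
    rw [e, IntermediateField.mem_fixingSubgroup_iff]
    constructor
    · intro h x hx
      have h1 := hq g ⟨x, hx⟩
      rw [h] at h1
      exact h1.symm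
    · intro h
      apply AlgEquiv.ext
      intro x
      apply Subtype.ext
      rw [hq]
      exact h x x.2
  have hQp : (P.comap m).IsPrime := Ideal.comap_isPrime m P
  have := faithful_ringOfIntegers (cut f)
  have hQ0 : P.comap m ≠ ⊥ := by
    intro h
    have h1 : (ℓ : 𝓞 (cut f)) ∈ P.comap m := by
      rw [Ideal.mem_comap, map_natCast]; exact hPℓ
    rw [h, Ideal.mem_bot] at h1
    exact hℓ.ne_zero (by exact_mod_cast h1)
  have hQ2 : (2 : 𝓞 (cut f)) ∉ P.comap m := by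
    intro h
    rw [Ideal.mem_comap, map_ofNat] at h
    apply hP.ne_top
    rw [Ideal.eq_top_iff_one]
    obtain ⟨n, hn⟩ := hℓ.odd_of_ne_two hℓ2
    have h3 : (ℓ : 𝓞 Qb) - 2 * (n : 𝓞 Qb) ∈ P := P.sub_mem hPℓ (P.mul_mem_right _ h)
    have e : (ℓ : 𝓞 Qb) - 2 * (n : 𝓞 Qb) = 1 := by
      rw [hn]; push_cast; ring
    rwa [e] at h3
  have hin : ∀ g : GQ, InP P g → InI (P.comap m) (q g) := by
    intro g hg x
    rw [Ideal.mem_comap, map_sub, hm]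
    exact hg _
  have hodd : ∀ g : GQ, InI1 (P.comap m) (q g) → OddMod U g := by
    intro g hg
    obtain ⟨n, hn, e⟩ := odd_of_in1 hQ0 hQ2 hg
    exact ⟨n, hn, (hker _).1 (by rw [map_pow, e])⟩
  obtain ⟨χ, hχ⟩ := exists_chi (G := cut f ≃ₐ[ℚ] cut f) hQ0
  let q' : inP P →* (inert (P.comap m) : Subgroup (cut f ≃ₐ[ℚ] cut f)) :=
    (q.comp (inP P).subtype).codRestrict _ fun g => hin g g.2
  refine ⟨_, inferInstance, Ideal.Quotient.isDomain (P.comap m), χ.comp q', ?_, ?_, ?_, ?_⟩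
  · refine Set.Finite.subset (Set.finite_range χ) ?_
    rintro _ ⟨g, rfl⟩
    exact ⟨q' g, rfl⟩
  · intro g hg
    exact hodd g (hχ (q' g) hg)
  · intro g hg
    have : q' g = 1 := Subtype.ext ((hker g).2 hg)
    rw [MonoidHom.comp_apply, this, map_one]
  · intro σ hσ τ hτ
    apply hodd
    rw [map_mul, map_mul, map_mul, map_inv, map_inv, map_pow]
    refine rel_in1 hQ0 hℓ.ne_zero (fun x => ?_) (hin τ hτ)
    rw [Ideal.mem_comap, map_sub, hm, map_pow]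
    exact hσ _

theorem OddMod.of_pow {U : Subgroup GQ} {g : GQ} {n : ℕ} (hn : Odd n) (h : OddMod U (g ^ n)) :
    OddMod U g := by
  obtain ⟨m, hm, e⟩ := h
  exact ⟨n * m, hn.mul hm, by rwa [pow_mul]⟩

theorem OddMod.mono {U V : Subgroup GQ} (h : U ≤ V) {g : GQ} (hg : OddMod U g) : OddMod V g :=
  hg.imp fun _ hm => ⟨hm.1, h hm.2⟩

theorem OddMod.conj {U : Subgroup GQ} [hn : U.Normal] {g : GQ} (hg : OddMod U g) (h : GQ) :
    OddMod U (h * g * h⁻¹) :=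
  hg.imp fun _ hm => ⟨hm.1, by rw [conj_pow]; exact hn.conj_mem _ hm.2 h⟩

theorem OddMod.mul_mem {U : Subgroup GQ} [hn : U.Normal] {g u : GQ} (hg : OddMod U g)
    (hu : u ∈ U) : OddMod U (g * u) := by
  obtain ⟨m, hm, e⟩ := hg
  refine ⟨m, hm, (QuotientGroup.eq_one_iff _).1 ?_⟩
  have h2 : (QuotientGroup.mk' U) u = 1 := (QuotientGroup.eq_one_iff u).2 hu
  change (QuotientGroup.mk' U) ((g * u) ^ m) = 1
  rw [map_pow, map_mul, h2, mul_one, ← map_pow]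
  exact (QuotientGroup.eq_one_iff _).2 e

section

variable {ℓ : ℕ} {P : Ideal (𝓞 Qb)}

theorem oddMod_mul (U : Subgroup GQ) [hn : U.Normal] (hU : IsOpen (U : Set GQ))
    (hℓ : ℓ.Prime) (hℓ2 : ℓ ≠ 2) (hP : P.IsPrime) (hPℓ : (ℓ : 𝓞 Qb) ∈ P) {g h : GQ}
    (hg : g ∈ inP P) (hh : h ∈ inP P) (og : OddMod U g) (oh : OddMod U h) : OddMod U (g * h) := by
  obtain ⟨k, _, _, χ, -, h1, h2, -⟩ := chi_data U hU hℓ hℓ2 hP hPℓ
  obtain ⟨m, hm, em⟩ := og
  obtain ⟨n, hn, en⟩ := oh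
  have a : χ ⟨g, hg⟩ ^ m = 1 := by rw [← map_pow]; exact h2 _ em
  have b : χ ⟨h, hh⟩ ^ n = 1 := by rw [← map_pow]; exact h2 _ en
  refine OddMod.of_pow (hm.mul hn) (h1 ((⟨g, hg⟩ * ⟨h, hh⟩) ^ (m * n)) ?_)
  rw [map_pow, map_mul, mul_pow, pow_mul, a, mul_comm m, pow_mul, b]; simp

theorem cyc_level (U : Subgroup GQ) [hn : U.Normal] (hU : IsOpen (U : Set GQ))
    (hℓ : ℓ.Prime) (hℓ2 : ℓ ≠ 2) (hP : P.IsPrime) (hPℓ : (ℓ : 𝓞 Qb) ∈ P) :
    ∃ τ ∈ inP P, ∀ g ∈ inP P, ∃ n : ℕ, OddMod U ((τ ^ n)⁻¹ * g) := by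
  obtain ⟨k, _, _, χ, hfin, h1, -, -⟩ := chi_data U hU hℓ hℓ2 hP hPℓ
  let χ' := χ.toHomUnits
  have hfin' : Finite χ'.range := by
    have := hfin.to_subtype
    refine Finite.of_injective (β := Set.range χ)
      (fun x => ⟨(x.1 : k), by obtain ⟨g, hg⟩ := x.2; exact ⟨g, by rw [← hg]; rfl⟩⟩) ?_
    intro x y h
    exact Subtype.ext (Units.ext (Subtype.ext_iff.1 h))
  have hc : IsCyclic χ'.range := isCyclic_of_injective_ringHom
    ((Units.coeHom k).comp χ'.range.subtype) (fun x y h => Subtype.ext (Units.ext h))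
  obtain ⟨⟨_, τ, rfl⟩, hτ⟩ := IsCyclic.exists_monoid_generator (α := χ'.range)
  refine ⟨τ, τ.2, fun g hg => ?_⟩
  obtain ⟨n, hn⟩ := hτ ⟨χ' ⟨g, hg⟩, _, rfl⟩
  have hn' : χ' τ ^ n = χ' ⟨g, hg⟩ := congrArg Subtype.val hn
  refine ⟨n, h1 ((τ ^ n)⁻¹ * ⟨g, hg⟩) ?_⟩
  have : χ' ((τ ^ n)⁻¹ * ⟨g, hg⟩) = 1 := by rw [map_mul, map_inv, map_pow, hn', inv_mul_cancel]
  exact congrArg Units.val this

theorem exists_tau (hℓ : ℓ.Prime) (hℓ2 : ℓ ≠ 2) (hP : P.IsPrime) (hPℓ : (ℓ : 𝓞 Qb) ∈ P) :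
    ∃ τ ∈ inP P, ∀ U : Subgroup GQ, U.Normal → IsOpen (U : Set GQ) →
      ∀ g ∈ inP P, ∃ n : ℕ, OddMod U ((τ ^ n)⁻¹ * g) := by
  have := galQb
  let ι := {N : Subgroup GQ // N.Normal ∧ IsOpen (N : Set GQ)}
  let C : ι → Set GQ := fun N =>
    {τ | τ ∈ inP P ∧ ∀ g ∈ inP P, ∃ n : ℕ, OddMod N.1 ((τ ^ n)⁻¹ * g)}
  have hcl : ∀ N, IsClosed (C N) := by
    intro N
    have hn := N.2.1
    have e : C N = (inP P : Set GQ) ∩
      {τ | ∀ g ∈ inP P, ∃ n : ℕ, OddMod N.1 ((τ ^ n)⁻¹ * g)} := rfl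
    rw [e]
    refine (isClosed_inP P).inter (isClosed_of_right N.2.2 fun τ hτ n hn' g hg => ?_)
    obtain ⟨m, hm⟩ := hτ g hg
    refine ⟨m, ?_⟩
    have h1 : ((τ ^ m)⁻¹ * g)⁻¹ * (((τ * n) ^ m)⁻¹ * g) ∈ N.1 := by
      refine (QuotientGroup.eq_one_iff _).1 ?_
      have h2 : (QuotientGroup.mk' N.1) n = 1 := (QuotientGroup.eq_one_iff n).2 hn'
      change (QuotientGroup.mk' N.1) _ = 1
      simp only [map_mul, map_inv, map_pow, h2, mul_one, inv_mul_cancel]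
    have h3 := hm.mul_mem h1
    rwa [mul_inv_cancel_left] at h3
  have hne : ∀ N, (C N).Nonempty := by
    intro N
    have hn := N.2.1
    exact cyc_level N.1 N.2.2 hℓ hℓ2 hP hPℓ
  have hdir : Directed (fun s t : Set GQ => s ⊇ t) C := by
    intro M N
    have := M.2.1
    have := N.2.1
    refine ⟨⟨M.1 ⊓ N.1, inferInstance, M.2.2.inter N.2.2⟩, ?_, ?_⟩
    · rintro τ ⟨h1, h2⟩
      exact ⟨h1, fun g hg => (h2 g hg).imp fun n hn => hn.mono inf_le_left⟩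
    · rintro τ ⟨h1, h2⟩
      exact ⟨h1, fun g hg => (h2 g hg).imp fun n hn => hn.mono inf_le_right⟩
  have hnon : Nonempty ι := ⟨⟨⊤, inferInstance, isOpen_univ⟩⟩
  obtain ⟨τ, hτ⟩ := IsCompact.nonempty_iInter_of_directed_nonempty_isCompact_isClosed C hdir hne
    (fun N => (hcl N).isCompact) hcl
  rw [Set.mem_iInter] at hτ
  exact ⟨τ, (hτ (Classical.choice hnon)).1, fun N h1 h2 => (hτ ⟨N, h1, h2⟩).2⟩

theorem exists_phi (hℓ : ℓ.Prime) (hP : P.IsPrime) (hPℓ : (ℓ : 𝓞 Qb) ∈ P) :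
    ∃ φ : GQ, ∀ x : 𝓞 Qb, φ • x - x ^ ℓ ∈ P := by
  obtain ⟨g, hg⟩ := H20.exists_frob (algebraMap ℚ Qb) hP hℓ hPℓ
  refine ⟨g, ?_⟩
  have hn : Ideal.absNorm (below (algebraMap ℚ Qb) P) = ℓ := by
    have hbp := H20.below_prime (algebraMap ℚ Qb) hP
    have hlb := H20.l_mem_below (algebraMap ℚ Qb) hPℓ
    have hd : Ideal.absNorm (below (algebraMap ℚ Qb) P) ∣ ℓ := by
      have h1 : Ideal.absNorm (Ideal.span {(ℓ : 𝓞 ℚ)}) = ℓ := by
        rw [Ideal.absNorm_span_natCast, RingOfIntegers.rank, Module.finrank_self, pow_one]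
      conv_rhs => rw [← h1]
      apply Ideal.absNorm_dvd_absNorm_of_le
      rw [Ideal.span_singleton_le_iff_mem]; exact hlb
    rcases (Nat.dvd_prime hℓ).1 hd with h | h
    · exfalso
      rw [Ideal.absNorm_eq_one_iff] at h
      exact hbp.ne_top h
    · exact h
  rw [hn] at hg
  exact hg

/-- the decomposition group -/
def dec (P : Ideal (𝓞 Qb)) : Subgroup GQ where
  carrier := {g | ∀ x : 𝓞 Qb, g • x ∈ P ↔ x ∈ P}
  mul_mem' {g h} hg hh x := by rw [mul_smul, hg, hh]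
  one_mem' x := by rw [one_smul]
  inv_mem' {g} hg x := by rw [← hg, smul_inv_smul]

theorem inP_le_dec : inP P ≤ dec P := by
  intro g hg x
  constructor
  · intro h; simpa using P.sub_mem h (hg x)
  · intro h; simpa using P.add_mem (hg x) h

theorem conj_inP {g s : GQ} (hg : g ∈ dec P) (hs : s ∈ inP P) : g * s * g⁻¹ ∈ inP P := by
  intro x
  have h := (hg _).2 (hs (g⁻¹ • x))
  rw [smul_sub, smul_inv_smul] at h
  rwa [mul_smul, mul_smul]

theorem phi_mem (hℓ : ℓ.Prime) (hP : P.IsPrime) {φ : GQ} (hφ : ∀ x : 𝓞 Qb, φ • x - x ^ ℓ ∈ P) :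
    φ ∈ dec P := by
  intro x
  constructor
  · intro h
    have := P.sub_mem h (hφ x)
    rw [sub_sub_cancel] at this
    exact hP.mem_of_pow_mem ℓ this
  · intro h
    simpa using P.add_mem (hφ x) (Ideal.pow_mem_of_mem P h ℓ hℓ.pos)

theorem phi_pow (hℓ : ℓ.Prime) (hP : P.IsPrime) {φ : GQ} (hφ : ∀ x : 𝓞 Qb, φ • x - x ^ ℓ ∈ P)
    (n : ℕ) (x : 𝓞 Qb) : (φ ^ n) • x - x ^ ℓ ^ n ∈ P := by
  induction n with
  | zero => simp
  | succ n ih =>
    have h1 := (phi_mem hℓ hP hφ _).2 ih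
    have h2 := hφ (x ^ ℓ ^ n)
    rw [smul_sub, ← mul_smul, ← pow_succ'] at h1
    have := P.add_mem h1 h2
    rwa [sub_add_sub_cancel, ← pow_mul, ← pow_succ] at this

theorem dec_fin (hℓ : ℓ.Prime) (hP : P.IsPrime) (hPℓ : (ℓ : 𝓞 Qb) ∈ P) {φ : GQ}
    (hφ : ∀ x : 𝓞 Qb, φ • x - x ^ ℓ ∈ P) {g : GQ} (hg : g ∈ dec P) (X : Finset (𝓞 Qb)) :
    ∃ k : ℕ, ∀ x ∈ X, (φ ^ k) • x - g • x ∈ P := by
  classical
  have := galQb
  have := algQb
  haveI : Fact ℓ.Prime := ⟨hℓ⟩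
  haveI : P.IsMaximal := by
    have hne : P.comap (algebraMap ℤ (𝓞 Qb)) ≠ ⊥ := by
      intro h
      have h1 : (ℓ : ℤ) ∈ P.comap (algebraMap ℤ (𝓞 Qb)) := by
        rw [Ideal.mem_comap, map_natCast]; exact hPℓ
      rw [h, Ideal.mem_bot] at h1
      exact hℓ.ne_zero (by exact_mod_cast h1)
    exact Ideal.isMaximal_of_isIntegral_of_isMaximal_comap P
      ((Ideal.comap_isPrime _ P).isMaximal hne)
  letI : Field (𝓞 Qb ⧸ P) := Ideal.Quotient.field P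
  haveI : CharP (𝓞 Qb ⧸ P) ℓ := (CharP.charP_iff_prime_eq_zero hℓ).2 (by
    rw [← map_natCast (Ideal.Quotient.mk P), Ideal.Quotient.eq_zero_iff_mem]; exact hPℓ)
  obtain ⟨n, hn, hfix⟩ : ∃ n, 0 < n ∧ ∀ x ∈ X, (φ ^ n) • x = x := by
    induction X using Finset.induction_on with
    | empty => exact ⟨1, one_pos, by simp⟩
    | insert x X _ ih =>
      obtain ⟨n, hn, h⟩ := ih
      let H : Subgroup GQ := MulAction.stabilizer GQ (x : Qb)
      have hH : IsOpen (H : Set GQ) := stabilizer_isOpen_of_isIntegral (x : Qb)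
      haveI : Finite (GQ ⧸ H) := H.quotient_finite_of_isOpen hH
      haveI : H.FiniteIndex := Subgroup.finiteIndex_of_finite_quotient
      obtain ⟨N, hN, -, hNz⟩ :=
        H.exists_pow_mem_of_index_ne_zero Subgroup.FiniteIndex.index_ne_zero (φ ^ n)
      refine ⟨n * N, Nat.mul_pos hn hN, fun y hy => ?_⟩
      rw [pow_mul]
      rcases Finset.mem_insert.1 hy with rfl | hy
      · exact RingOfIntegers.ext (MulAction.mem_stabilizer_iff.1 hNz)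
      · exact MulAction.mem_stabilizer_iff.1
          (Subgroup.pow_mem _ (MulAction.mem_stabilizer_iff.2 (h y hy)) N)
  let E : Subfield (𝓞 Qb ⧸ P) :=
    RingHom.eqLocusField (iterateFrobenius (𝓞 Qb ⧸ P) ℓ n) (RingHom.id _)
  have hE : ∀ y, y ∈ E ↔ y ^ ℓ ^ n = y := fun y => Iff.rfl
  have hfin : Finite E := by
    have h1 : 1 < ℓ ^ n := Nat.one_lt_pow hn.ne' hℓ.one_lt
    have hne := FiniteField.X_pow_card_sub_X_ne_zero (𝓞 Qb ⧸ P) h1
    refine Set.Finite.subset (Finset.finite_toSet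
      (Polynomial.X ^ ℓ ^ n - Polynomial.X : Polynomial (𝓞 Qb ⧸ P)).roots.toFinset) ?_
    intro y hy
    have := (hE y).1 hy
    simp [Polynomial.mem_roots hne, this]
  let gb : (𝓞 Qb ⧸ P) →+* (𝓞 Qb ⧸ P) := Ideal.Quotient.lift P
    ((Ideal.Quotient.mk P).comp (MulSemiringAction.toRingHom GQ (𝓞 Qb) g))
    (fun x hx => Ideal.Quotient.eq_zero_iff_mem.2 ((hg x).2 hx))
  letI : Algebra (ZMod ℓ) E := ZMod.algebra E ℓ
  let gE : E →+* E := (gb.comp E.subtype).codRestrict E fun y => by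
    rw [hE]
    show gb y ^ ℓ ^ n = gb y
    rw [← map_pow, (hE y).1 y.2]
  let gA : E →ₐ[ZMod ℓ] E :=
    { toRingHom := gE
      commutes' := fun r => RingHom.congr_fun
        (Subsingleton.elim (gE.comp (algebraMap (ZMod ℓ) E)) (algebraMap (ZMod ℓ) E)) r }
  obtain ⟨k, hk⟩ := (FiniteField.bijective_frobeniusAlgHom_pow (ZMod ℓ) E).2 gA
  refine ⟨k, fun x hx => ?_⟩
  have hxE : Ideal.Quotient.mk P x ∈ E := by
    rw [hE, ← map_pow, eq_comm, Ideal.Quotient.eq]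
    have := phi_pow hℓ hP hφ n x
    rwa [hfix x hx] at this
  have h1 := congrArg Subtype.val (DFunLike.congr_fun hk ⟨_, hxE⟩)
  have h2 : ∀ (i : ℕ) (y : E), (FiniteField.frobeniusAlgHom (ZMod ℓ) E ^ i) y = y ^ ℓ ^ i := by
    intro i
    induction i with
    | zero => intro y; simp
    | succ i ih =>
      intro y
      rw [pow_succ, AlgHom.mul_apply, ih, FiniteField.coe_frobeniusAlgHom, ZMod.card, ← pow_mul,
        pow_succ']
  rw [h2] at h1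
  have h3 : Ideal.Quotient.mk P (x ^ ℓ ^ (k : ℕ)) = Ideal.Quotient.mk P (g • x) := by
    rw [map_pow]; exact h1
  have := P.add_mem (phi_pow hℓ hP hφ k x) (Ideal.Quotient.eq.1 h3)
  rwa [sub_add_sub_cancel] at this

theorem dec_gen (hℓ : ℓ.Prime) (hP : P.IsPrime) (hPℓ : (ℓ : 𝓞 Qb) ∈ P) {φ : GQ}
    (hφ : ∀ x : 𝓞 Qb, φ • x - x ^ ℓ ∈ P) {g : GQ} (hg : g ∈ dec P) (U : Subgroup GQ)
    (hU : IsOpen (U : Set GQ)) : ∃ (k : ℕ) (s u : GQ), s ∈ inP P ∧ u ∈ U ∧ g = u * φ ^ k * s := by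
  classical
  have := galQb
  have := algQb
  let C : Finset (𝓞 Qb) → Set GQ := fun X =>
    closure (Set.range fun k : ℕ => φ ^ k) ∩ {z | ∀ x ∈ X, z • x - g • x ∈ P}
  have hcl : ∀ X, IsClosed (C X) := by
    intro X
    refine isClosed_closure.inter ?_
    have e : {z : GQ | ∀ x ∈ X, z • x - g • x ∈ P} = ⋂ x ∈ X, {z : GQ | z • x - g • x ∈ P} := by
      ext z; simp
    rw [e]
    refine isClosed_biInter fun x _ => ?_
    have h1 : IsOpen ((MulAction.stabilizer GQ (x : Qb) : Subgroup GQ) : Set GQ) :=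
      stabilizer_isOpen_of_isIntegral (x : Qb)
    refine isClosed_of_right h1 fun z hz n hn => ?_
    have hn' : n • x = x := RingOfIntegers.ext (MulAction.mem_stabilizer_iff.1 hn)
    change (z * n) • x - g • x ∈ P
    rw [mul_smul, hn']
    exact hz
  have hne : ∀ X, (C X).Nonempty := fun X => by
    obtain ⟨k, hk⟩ := dec_fin hℓ hP hPℓ hφ hg X
    exact ⟨φ ^ k, subset_closure ⟨k, rfl⟩, hk⟩
  have hdir : Directed (fun s t : Set GQ => s ⊇ t) C := fun X Y =>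
    ⟨X ∪ Y, fun z hz => ⟨hz.1, fun x hx => hz.2 x (Finset.mem_union_left _ hx)⟩,
      fun z hz => ⟨hz.1, fun x hx => hz.2 x (Finset.mem_union_right _ hx)⟩⟩
  obtain ⟨z, hz⟩ := IsCompact.nonempty_iInter_of_directed_nonempty_isCompact_isClosed C hdir hne
    (fun N => (hcl N).isCompact) hcl
  rw [Set.mem_iInter] at hz
  have hz1 : ∀ x, z • x - g • x ∈ P := fun x => (hz {x}).2 x (Finset.mem_singleton_self x)
  have hzd : z ∈ dec P := by
    intro x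
    rw [← hg x]
    constructor
    · intro h; simpa using P.sub_mem h (hz1 x)
    · intro h; simpa using P.add_mem (hz1 x) h
  have ho : IsOpen ((fun y => z * y⁻¹) ⁻¹' (U : Set GQ)) :=
    hU.preimage (continuous_const.mul continuous_inv)
  obtain ⟨_, hy, k, rfl⟩ := mem_closure_iff.1 (hz ∅).1 _ ho (by simp [U.one_mem])
  refine ⟨k, z⁻¹ * g, z * (φ ^ k)⁻¹, fun x => ?_, hy, by group⟩
  have h := ((dec P).inv_mem hzd _).2 (P.neg_mem (hz1 x))
  rwa [neg_sub, smul_sub, inv_smul_smul, ← mul_smul] at h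

end

/-- the tame structure seen through a homomorphism `f`: `D` decomposition group, `I` inertia
group, `N` the part of odd order -/
structure TameAt {G Γ : Type*} [Group G] [Monoid Γ] (ℓ : ℕ) (D I N : Subgroup G) (τ φ : G)
    (f : G →* Γ) : Prop where
  ID : I ≤ D
  NI : N ≤ I
  tau : τ ∈ I
  phi : φ ∈ D
  cjI : ∀ g ∈ D, ∀ s ∈ I, g * s * g⁻¹ ∈ I
  cjN : ∀ g ∈ D, ∀ p ∈ N, g * p * g⁻¹ ∈ N
  odd : ∀ p ∈ N, ∃ m, Odd m ∧ f p ^ m = 1
  cyc : ∀ s ∈ I, ∃ k : ℕ, ∃ p ∈ N, s = τ ^ k * p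
  rel : ∀ s ∈ I, ∃ p ∈ N, φ * s * φ⁻¹ = p * s ^ ℓ
  gen : ∀ g ∈ D, ∃ k : ℕ, ∃ s ∈ I, f g = f (φ ^ k * s)

/-- **The tame structure**: one `τ` for all finite quotients, any Frobenius `φ`. -/
theorem tame {ℓ : ℕ} {P : Ideal (𝓞 Qb)} (hℓ : ℓ.Prime) (hℓ2 : ℓ ≠ 2) (hP : P.IsPrime)
    (hPℓ : (ℓ : 𝓞 Qb) ∈ P) : ∃ τ ∈ inP P, ∀ φ : GQ, (∀ x : 𝓞 Qb, φ • x - x ^ ℓ ∈ P) →
      ∀ (Γ : Type) [Monoid Γ] (f : GQ →* Γ), IsOpen {g : GQ | f g = 1} →
        ∃ N : Subgroup GQ, TameAt ℓ (dec P) (inP P) N τ φ f := by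
  obtain ⟨τ, hτ, h⟩ := exists_tau hℓ hℓ2 hP hPℓ
  refine ⟨τ, hτ, fun φ hφ Γ _ f hf => ?_⟩
  let U : Subgroup GQ := f.toHomUnits.ker
  have hU : ∀ g, g ∈ U ↔ f g = 1 := fun g => by
    rw [MonoidHom.mem_ker, Units.ext_iff]; rfl
  have hUo : IsOpen (U : Set GQ) := by
    have : (U : Set GQ) = {g : GQ | f g = 1} := Set.ext hU
    rwa [this]
  let N : Subgroup GQ :=
    { carrier := {g | g ∈ inP P ∧ OddMod U g}
      mul_mem' := fun {a b} ha hb => ⟨(inP P).mul_mem ha.1 hb.1,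
        oddMod_mul U hUo hℓ hℓ2 hP hPℓ ha.1 hb.1 ha.2 hb.2⟩
      one_mem' := ⟨(inP P).one_mem, 1, odd_one, by simp⟩
      inv_mem' := fun {a} ha => ⟨(inP P).inv_mem ha.1,
        ha.2.imp fun m hm => ⟨hm.1, by rw [inv_pow]; exact U.inv_mem hm.2⟩⟩ }
  have hφd := phi_mem hℓ hP hφ
  refine ⟨N, inP_le_dec, fun g hg => hg.1, hτ, hφd, fun g hg s hs => conj_inP hg hs,
    fun g hg p hp => ⟨conj_inP hg hp.1, hp.2.conj g⟩, fun p hp => ?_, fun s hs => ?_,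
    fun s hs => ?_, fun g hg => ?_⟩
  · obtain ⟨m, hm, e⟩ := hp.2
    exact ⟨m, hm, by rw [← map_pow]; exact (hU _).1 e⟩
  · obtain ⟨n, hn⟩ := h U inferInstance hUo s hs
    exact ⟨n, _, ⟨(inP P).mul_mem ((inP P).inv_mem ((inP P).pow_mem hτ n)) hs, hn⟩, by group⟩
  · obtain ⟨k, _, _, χ, -, -, -, h4⟩ := chi_data U hUo hℓ hℓ2 hP hPℓ
    exact ⟨_, ⟨(inP P).mul_mem (conj_inP hφd hs) ((inP P).inv_mem ((inP P).pow_mem hs ℓ)),
      h4 φ hφ s hs⟩, by group⟩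
  · obtain ⟨k, s, u, hs, hu, rfl⟩ := dec_gen hℓ hP hPℓ hφ hg U hUo
    exact ⟨k, s, hs, by rw [mul_assoc, map_mul, (hU u).1 hu, one_mul]⟩

end Vale.Agent.P022D.W
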