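import Vale.Agent.P022D.W.Tame

/-!
# P022D, block W: lifts of a residually monomial local representation are monomial
-/

set_option linter.all false

noncomputable section

namespace Vale.Agent.P022D.W

open Classical

/-- `2 × 2` matrices -/
abbrev Mt (A : Type) : Type := Matrix (Fin 2) (Fin 2) A

section grp

variable {G Γ : Type*} [Group G] [Monoid Γ] {ℓ : ℕ} {D I N : Subgroup G} {τ φ : G} {f : G →* Γ}

theorem TameAt.comp (h : TameAt ℓ D I N τ φ f) {Γ' : Type*} [Monoid Γ'] (ψ : Γ →* Γ') :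
    TameAt ℓ D I N τ φ (ψ.comp f) :=
  ⟨h.ID, h.NI, h.tau, h.phi, h.cjI, h.cjN, fun p hp => (h.odd p hp).imp fun m hm =>
    ⟨hm.1, by rw [MonoidHom.comp_apply, ← map_pow, hm.2, map_one]⟩, h.cyc, h.rel,
    fun g hg => by
      obtain ⟨k, s, hs, e⟩ := h.gen g hg
      exact ⟨k, s, hs, congrArg ψ e⟩⟩

theorem f_inv {a b : G} (h : f a = f b) : f a⁻¹ = f b⁻¹ := by
  calc f a⁻¹ = f a⁻¹ * f (b * b⁻¹) := by simp
    _ = f (a⁻¹ * a) * f b⁻¹ := by rw [map_mul, map_mul, h, mul_assoc]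
    _ = f b⁻¹ := by simp

theorem TameAt.comm (h : TameAt ℓ D I N τ φ f) {s t : G} (hs : s ∈ I) (ht : t ∈ I) :
    ∃ p ∈ N, t * s * t⁻¹ = p * s := by
  obtain ⟨k, p, hp, rfl⟩ := h.cyc s hs
  obtain ⟨j, q, hq, rfl⟩ := h.cyc t ht
  have hτ : ∀ n : ℕ, τ ^ n ∈ D := fun n => D.pow_mem (h.ID h.tau) n
  refine ⟨_, ?_, (mul_inv_cancel_right _ (τ ^ k * p)⁻¹).symm.trans (by rw [inv_inv])⟩
  have e : τ ^ j * q * (τ ^ k * p) * (τ ^ j * q)⁻¹ * (τ ^ k * p)⁻¹ =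
      (τ ^ j * q * (τ ^ j)⁻¹) * (τ ^ (j + k) * (p * q⁻¹) * (τ ^ (j + k))⁻¹) *
        (τ ^ k * p⁻¹ * (τ ^ k)⁻¹) := by group
  rw [e]
  exact N.mul_mem (N.mul_mem (h.cjN _ (hτ j) q hq)
    (h.cjN _ (hτ _) _ (N.mul_mem hp (N.inv_mem hq)))) (h.cjN _ (hτ k) _ (N.inv_mem hp))

theorem TameAt.mul_pow (h : TameAt ℓ D I N τ φ f) {p s : G} (hp : p ∈ N) (hs : s ∈ D) (n : ℕ) :
    ∃ q ∈ N, (p * s) ^ n = q * s ^ n := by
  induction n with
  | zero => exact ⟨1, N.one_mem, by simp⟩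
  | succ n ih =>
    obtain ⟨q, hq, e⟩ := ih
    exact ⟨q * (s ^ n * p * (s ^ n)⁻¹), N.mul_mem hq (h.cjN _ (D.pow_mem hs n) p hp), by
      rw [pow_succ, e, pow_succ]; group⟩

theorem TameAt.rel_pow (h : TameAt ℓ D I N τ φ f) (k : ℕ) {s : G} (hs : s ∈ I) :
    ∃ p ∈ N, φ ^ k * s * (φ ^ k)⁻¹ = p * s ^ ℓ ^ k := by
  induction k with
  | zero => exact ⟨1, N.one_mem, by simp⟩
  | succ k ih =>
    obtain ⟨p, hp, e⟩ := ih
    obtain ⟨q, hq, e'⟩ := h.rel (s ^ ℓ ^ k) (I.pow_mem hs _)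
    refine ⟨φ * p * φ⁻¹ * q, N.mul_mem (h.cjN _ h.phi p hp) hq, ?_⟩
    rw [pow_succ ℓ, pow_mul, mul_assoc _ q, ← e']
    calc φ ^ (k + 1) * s * (φ ^ (k + 1))⁻¹ = φ * (φ ^ k * s * (φ ^ k)⁻¹) * φ⁻¹ := by group
      _ = _ := by rw [e]; group

theorem TameAt.conj_odd (h : TameAt ℓ D I N τ φ f) (hℓ : Odd ℓ) {g s : G} (hg : g ∈ D)
    (hs : s ∈ I) : ∃ e, Odd e ∧ ∃ p ∈ N, f (g * s * g⁻¹) = f (p * s ^ e) := by
  obtain ⟨k, t, ht, e⟩ := h.gen g hg
  obtain ⟨p, hp, e1⟩ := h.comm hs ht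
  obtain ⟨q, hq, e2⟩ := h.rel_pow k hs
  refine ⟨ℓ ^ k, hℓ.pow, φ ^ k * p * (φ ^ k)⁻¹ * q,
    N.mul_mem (h.cjN _ (D.pow_mem h.phi k) p hp) hq, ?_⟩
  rw [map_mul, map_mul, f_inv e, e, ← map_mul, ← map_mul, mul_assoc _ q, ← e2]
  congr 1
  calc φ ^ k * t * s * (φ ^ k * t)⁻¹ = φ ^ k * (t * s * t⁻¹) * (φ ^ k)⁻¹ := by group
    _ = _ := by rw [e1]; group

theorem TameAt.comm_dec (h : TameAt ℓ D I N τ φ f) {g k : G} (hg : g ∈ D) (hk : k ∈ D) :
    ∃ s ∈ I, f (k * g) = f (s * g * k) := by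
  obtain ⟨i, t, ht, e⟩ := h.gen g hg
  obtain ⟨j, u, hu, e'⟩ := h.gen k hk
  have hφ : ∀ n : ℕ, φ ^ n ∈ D := fun n => D.pow_mem h.phi n
  refine ⟨(φ ^ j * u * (φ ^ j)⁻¹) * (φ ^ (j + i) * (t * u⁻¹) * (φ ^ (j + i))⁻¹) *
    (φ ^ i * t⁻¹ * (φ ^ i)⁻¹), I.mul_mem (I.mul_mem (h.cjI _ (hφ j) u hu)
    (h.cjI _ (hφ _) _ (I.mul_mem ht (I.inv_mem hu)))) (h.cjI _ (hφ i) _ (I.inv_mem ht)), ?_⟩
  rw [map_mul f k g, map_mul f _ k, map_mul f _ g, e, e', ← map_mul, ← map_mul, ← map_mul]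
  congr 1
  group

end grp

/-- a local ring with nilpotent maximal ideal, given by its residue map -/
structure LR {A F : Type} [CommRing A] [Field F] (π : A →+* F) : Prop where
  nil : ∃ n, RingHom.ker π ^ n = ⊥
  loc : ∀ a, π a ≠ 0 → IsUnit a

theorem LR.of_finite {A F : Type} [CommRing A] [Field F] [Finite A] (π : A →+* F)
    (loc : ∀ a, π a ≠ 0 → IsUnit a) : LR π := by
  refine ⟨?_, loc⟩
  have : IsArtinianRing A := inferInstance
  obtain ⟨n, hn⟩ := IsArtinianRing.isNilpotent_jacobson_bot (R := A)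
  refine ⟨n, eq_bot_iff.2 (le_trans (Ideal.pow_right_mono ?_ n) hn.le)⟩
  intro x hx
  rw [Ideal.mem_jacobson_bot]
  intro y
  apply loc
  rw [map_add, map_mul, RingHom.mem_ker.1 hx]; simp

theorem LR.isNilpotent {A F : Type} [CommRing A] [Field F] {π : A →+* F} (h : LR π) {a : A}
    (ha : π a = 0) : IsNilpotent a := by
  obtain ⟨n, hn⟩ := h.nil
  exact ⟨n, by
    have := Ideal.pow_mem_pow (I := RingHom.ker π) ha n
    rwa [hn, Ideal.mem_bot] at this⟩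

/-- the residual data at a prime of kind W -/
structure WD {G F : Type} [Group G] [Field F] (ℓ : ℕ) (D H : Subgroup G) (g0 : G)
    (rb : G →* Mt F) : Prop where
  odd : Odd ℓ
  two : (2 : F) = 0
  dg : ∀ g ∈ H, rb g 0 1 = 0 ∧ rb g 1 0 = 0
  ad : ∀ g ∉ H, rb g 0 0 = 0 ∧ rb g 1 1 = 0
  g0D : g0 ∈ D
  g0H : g0 ∈ H
  ne : rb g0 0 0 ≠ rb g0 1 1

theorem ent2 {A : Type} [CommRing A] (M N : Mt A) {i j : Fin 2} (hij : i ≠ j) :
    (M * N) i j = M i i * N i j + M i j * N j j := by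
  fin_cases i <;> fin_cases j <;> simp_all [Matrix.mul_apply, Fin.sum_univ_two, add_comm]

theorem ent1 {A : Type} [CommRing A] (M N : Mt A) {i j : Fin 2} (hij : i ≠ j) :
    (M * N) i i = M i i * N i i + M i j * N j i := by
  fin_cases i <;> fin_cases j <;> simp_all [Matrix.mul_apply, Fin.sum_univ_two, add_comm]

section

variable {G A F : Type} [Group G] [CommRing A] [Field F] {π : A →+* F} {ℓ : ℕ}
  {D I N H : Subgroup G} {τ φ g0 : G} {rb : G →* Mt F}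

theorem WD.off (hW : WD ℓ D H g0 rb) {i j : Fin 2} (hij : i ≠ j) {g : G} (hg : g ∈ H) :
    rb g i j = 0 := by
  have := hW.dg g hg
  fin_cases i <;> fin_cases j <;> simp_all

theorem WD.dia (hW : WD ℓ D H g0 rb) (i : Fin 2) {g : G} (hg : g ∉ H) : rb g i i = 0 := by
  have := hW.ad g hg
  fin_cases i <;> simp_all

theorem WD.ne' (hW : WD ℓ D H g0 rb) {i j : Fin 2} (hij : i ≠ j) : rb g0 i i ≠ rb g0 j j := by
  have := hW.ne
  have := hW.ne.symm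
  fin_cases i <;> fin_cases j <;> simp_all

theorem WD.dne (hW : WD ℓ D H g0 rb) (i : Fin 2) {g : G} (hg : g ∈ H) : rb g i i ≠ 0 := by
  intro h0
  obtain ⟨j, hj⟩ := exists_ne i
  have h := ent1 (rb g) (rb g⁻¹) hj.symm
  rw [← map_mul, mul_inv_cancel, map_one, h0, hW.off hj.symm hg] at h
  simpa using h

theorem WD.ane (hW : WD ℓ D H g0 rb) {i j : Fin 2} (hij : i ≠ j) {g : G} (hg : g ∉ H) :
    rb g i j ≠ 0 := by
  intro h0
  have h := ent1 (rb g) (rb g⁻¹) hij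
  rw [← map_mul, mul_inv_cancel, map_one, h0, hW.dia i hg] at h
  simpa using h

theorem WD.mem_iff (hW : WD ℓ D H g0 rb) {g : G} : g ∈ H ↔ rb g 0 1 = 0 :=
  ⟨fun h => (hW.dg g h).1, fun h => by_contra fun hn => hW.ane (by decide) hn h⟩

theorem WD.mul_not (hW : WD ℓ D H g0 rb) {g k : G} (hg : g ∉ H) (hk : k ∉ H) : g * k ∈ H := by
  rw [hW.mem_iff, map_mul, ent2 _ _ (by decide), hW.dia 0 hg, hW.dia 1 hk]; simp

theorem WD.conj (hW : WD ℓ D H g0 rb) (g : G) {u : G} (hu : u ∈ H) : g * u * g⁻¹ ∈ H := by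
  by_cases hg : g ∈ H
  · exact H.mul_mem (H.mul_mem hg hu) (H.inv_mem hg)
  · refine hW.mul_not (fun h => hg ?_) (fun h => hg (by simpa using H.inv_mem h))
    simpa using H.mul_mem h (H.inv_mem hu)

theorem WD.of_odd (hW : WD ℓ D H g0 rb) {g : G} {m : ℕ} (hm : Odd m) (h : g ^ m ∈ H) : g ∈ H := by
  by_contra hn
  obtain ⟨k, rfl⟩ := hm
  have h2 : (g ^ 2) ^ k ∈ H := H.pow_mem (by rw [sq]; exact hW.mul_not hn hn) k
  rw [pow_succ, pow_mul] at h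
  exact hn (by simpa using H.mul_mem (H.inv_mem h2) h)

/-- `σ` lifts `rb` -/
def Lift (π : A →+* F) (rb : G →* Mt F) (σ : G →* Mt A) : Prop := ∀ g, (σ g).map π = rb g

theorem Lift.ent {σ : G →* Mt A} (h : Lift π rb σ) (g : G) (i j : Fin 2) :
    π (σ g i j) = rb g i j := congrFun (congrFun (h g) i) j

theorem Lift.eq {σ : G →* Mt A} (h : Lift π rb σ) {g k : G} (e : σ g = σ k) : rb g = rb k := by
  rw [← h, ← h, e]

theorem N_le (hW : WD ℓ D H g0 rb) {σ : G →* Mt A} (hσ : Lift π rb σ)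
    (hT : TameAt ℓ D I N τ φ σ) : N ≤ H := by
  intro p hp
  obtain ⟨m, hm, e⟩ := hT.odd p hp
  refine hW.of_odd hm ?_
  rw [hW.mem_iff, hσ.eq (k := 1) (by rw [map_pow, e, map_one]), map_one]
  simp

theorem diag_step (hW : WD ℓ D H g0 rb) (hA : LR π) {σ : G →* Mt A} (hσ : Lift π rb σ)
    (hT : TameAt ℓ D I N τ φ σ) {i j : Fin 2} (hij : i ≠ j) (h0 : σ g0 i j = 0) (J : Ideal A)
    (hJ : ∀ g ∈ D, g ∈ H → σ g i j ∈ J) :
    ∀ g ∈ D, g ∈ H → σ g i j ∈ RingHom.ker π * J := by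
  set J' := RingHom.ker π * J with hJ'
  have hm : ∀ {x y : A}, π x = 0 → y ∈ J → x * y ∈ J' := fun hx hy => Ideal.mul_mem_mul hx hy
  have hu : IsUnit (σ g0 i i - σ g0 j j) := hA.loc _ (by
    rw [map_sub, hσ.ent, hσ.ent, sub_ne_zero]; exact hW.ne' hij)
  have hH1 : ∀ {g}, rb g = 1 → g ∈ H := fun h => by rw [hW.mem_iff, h]; simp
  have hadd : ∀ g ∈ D, ∀ k ∈ D, rb g = 1 → rb k = 1 →
      σ (g * k) i j - (σ g i j + σ k i j) ∈ J' := by
    intro g hg k hk eg ek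
    have e : σ (g * k) i j - (σ g i j + σ k i j) =
        (σ g i i - 1) * σ k i j + (σ k j j - 1) * σ g i j := by
      rw [map_mul, ent2 _ _ hij]; ring
    rw [e]
    refine J'.add_mem (hm ?_ (hJ k hk (hH1 ek))) (hm ?_ (hJ g hg (hH1 eg)))
    · rw [map_sub, hσ.ent, eg]; simp
    · rw [map_sub, hσ.ent, ek]; simp
  have hpow : ∀ g ∈ D, rb g = 1 → ∀ n : ℕ, σ (g ^ n) i j - n * σ g i j ∈ J' := by
    intro g hg eg n
    induction n with
    | zero => simp [Matrix.one_apply_ne hij]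
    | succ n ih =>
      have := J'.add_mem (hadd (g ^ n) (D.pow_mem hg n) g hg (by rw [map_pow, eg, one_pow]) eg) ih
      rw [pow_succ]
      convert this using 1
      push_cast; ring
  have hodd : ∀ g ∈ D, rb g = 1 → ∀ n : ℕ, Odd n → σ (g ^ n) i j - σ g i j ∈ J' := by
    rintro g hg eg _ ⟨n, rfl⟩
    have h2 : (2 * n : A) * σ g i j ∈ J' :=
      hm (by rw [map_mul, map_ofNat, hW.two, zero_mul]) (hJ g hg (hH1 eg))
    have := J'.add_mem (hpow g hg eg (2 * n + 1)) h2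
    convert this using 1
    push_cast; ring
  have hI : ∀ s ∈ I, rb s = 1 → σ s i j ∈ J' := by
    intro s hs es
    obtain ⟨e, he, p, hp, eq⟩ := hT.conj_odd hW.odd hW.g0D hs
    have hpD := hT.ID (hT.NI hp)
    have ep : rb p = 1 := by
      have := hσ.eq eq
      rw [map_mul, map_mul, es, mul_one, ← map_mul, mul_inv_cancel, map_one, map_mul, map_pow, es,
        one_pow, mul_one] at this
      exact this.symm
    obtain ⟨m, hm', em⟩ := hT.odd p hp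
    have h1 := hodd p hpD ep m hm'
    rw [map_pow, em, Matrix.one_apply_ne hij, zero_sub, neg_mem_iff] at h1
    have h2 := hadd p hpD (s ^ e) (D.pow_mem (hT.ID hs) e) ep (by rw [map_pow, es, one_pow])
    have h3 := hodd s (hT.ID hs) es e he
    have h4 : σ (g0 * s * g0⁻¹) i j - σ s i j ∈ J' := by
      rw [eq]
      convert J'.add_mem (J'.add_mem h2 h3) h1 using 1
      ring
    have h5 : σ g0 i i * σ s i j = σ (g0 * s * g0⁻¹) i j * σ g0 j j := by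
      have : σ (g0 * s) i j = σ (g0 * s * g0⁻¹ * g0) i j := by rw [inv_mul_cancel_right]
      rw [map_mul, map_mul σ _ g0, ent2 _ _ hij, ent2 _ (σ g0) hij, h0] at this
      simpa using this
    rw [← J'.unit_mul_mem_iff_mem hu]
    convert J'.mul_mem_right (σ g0 j j) h4 using 1
    rw [sub_mul, sub_mul, h5]; ring
  intro g hg hgH
  obtain ⟨s, hs, eq⟩ := hT.comm_dec hg hW.g0D
  have es : rb s = 1 := by
    have h1 := hσ.eq eq
    have h2 : rb (g0 * g) = rb (g * g0) := by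
      rw [map_mul, map_mul]
      ext a b
      by_cases hab : a = b
      · subst hab
        obtain ⟨c, hc⟩ := exists_ne a
        rw [ent1 _ _ hc.symm, ent1 _ _ hc.symm, hW.off hc.symm hgH, hW.off hc.symm hW.g0H]; ring
      · rw [ent2 _ _ hab, ent2 _ _ hab, hW.off hab hgH, hW.off hab hW.g0H]; ring
    rw [h2, mul_assoc, map_mul rb s] at h1
    calc rb s = rb s * rb (g * g0) * rb (g * g0)⁻¹ := by
          rw [mul_assoc, ← map_mul, mul_inv_cancel, map_one, mul_one]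
      _ = 1 := by rw [← h1, ← map_mul, mul_inv_cancel, map_one]
  have h1 := congrFun (congrFun eq i) j
  rw [map_mul, map_mul σ _ g0, map_mul, ent2 _ _ hij, ent2 _ (σ g0) hij, ent2 _ _ hij, h0] at h1
  rw [← J'.unit_mul_mem_iff_mem hu]
  have e : (σ g0 i i - σ g0 j j) * σ g i j =
      ((σ s i i - 1) * σ g i j) * σ g0 j j + σ s i j * (σ g j j * σ g0 j j) := by
    linear_combination h1
  rw [e]
  refine J'.add_mem (J'.mul_mem_right _ (hm ?_ (hJ g hg hgH))) (J'.mul_mem_right _ (hI s hs es))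
  rw [map_sub, hσ.ent, es]; simp

/-- **W1**: diagonal on `D ∩ H` -/
theorem diag (hW : WD ℓ D H g0 rb) (hA : LR π) {σ : G →* Mt A} (hσ : Lift π rb σ)
    (hT : TameAt ℓ D I N τ φ σ) {i j : Fin 2} (hij : i ≠ j) (h0 : σ g0 i j = 0) {g : G}
    (hg : g ∈ D) (hgH : g ∈ H) : σ g i j = 0 := by
  have key : ∀ k : ℕ, ∀ g ∈ D, g ∈ H → σ g i j ∈ RingHom.ker π ^ k := by
    intro k
    induction k with
    | zero => intro g _ _; simp
    | succ k ih => rw [pow_succ']; exact diag_step hW hA hσ hT hij h0 _ ih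
  obtain ⟨n, hn⟩ := hA.nil
  have := key n g hg hgH
  rwa [hn, Ideal.mem_bot] at this

/-- a monomial lift -/
structure Mon (D H : Subgroup G) (σ : G →* Mt A) : Prop where
  off : ∀ g ∈ D, g ∈ H → ∀ i j, i ≠ j → σ g i j = 0
  dia : ∀ g ∈ D, g ∉ H → ∀ i, σ g i i = 0
  swp : ∀ g ∈ D, g ∉ H → ∀ k ∈ D, k ∈ H → ∀ i j, i ≠ j → σ (g * k * g⁻¹) i i = σ k j j

theorem mon (hW : WD ℓ D H g0 rb) (hA : LR π) {σ : G →* Mt A} (hσ : Lift π rb σ)
    (hT : TameAt ℓ D I N τ φ σ) (h01 : σ g0 0 1 = 0) (h10 : σ g0 1 0 = 0) : Mon D H σ := by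
  have hoff : ∀ g ∈ D, g ∈ H → ∀ i j, i ≠ j → σ g i j = 0 := fun g hg hgH i j hij =>
    diag hW hA hσ hT hij (by fin_cases i <;> fin_cases j <;> simp_all) hg hgH
  have hswp : ∀ g ∈ D, g ∉ H → ∀ k ∈ D, k ∈ H → ∀ i j, i ≠ j →
      σ (g * k * g⁻¹) i i = σ k j j := by
    intro g hg hgH k hk hkH i j hij
    have hu : IsUnit (σ g i j) := hA.loc _ (by rw [hσ.ent]; exact hW.ane hij hgH)
    have : σ (g * k * g⁻¹ * g) i j = σ (g * k) i j := by rw [inv_mul_cancel_right]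
    rw [map_mul, map_mul σ g k, ent2 _ (σ g) hij, ent2 (σ g) _ hij, hoff k hk hkH i j hij,
      hoff _ (D.mul_mem (D.mul_mem hg hk) (D.inv_mem hg)) (hW.conj g hkH) i j hij] at this
    apply hu.mul_right_cancel
    linear_combination this
  refine ⟨hoff, fun g hg hgH i => ?_, hswp⟩
  obtain ⟨j, hj⟩ := exists_ne i
  have hu : IsUnit (σ g0 j j - σ g0 i i) := hA.loc _ (by
    rw [map_sub, hσ.ent, hσ.ent, sub_ne_zero]; exact hW.ne' hj)
  have : σ (g * g0 * g⁻¹ * g) i i = σ (g * g0) i i := by rw [inv_mul_cancel_right]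
  rw [map_mul, map_mul σ g g0, ent1 _ (σ g) hj.symm, ent1 (σ g) _ hj.symm,
    hoff g0 hW.g0D hW.g0H j i hj, hswp g hg hgH g0 hW.g0D hW.g0H i j hj.symm,
    hoff _ (D.mul_mem (D.mul_mem hg hW.g0D) (D.inv_mem hg)) (hW.conj g hW.g0H) i j hj.symm] at this
  apply hu.mul_left_cancel
  linear_combination this

end

end Vale.Agent.P022D.W
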