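import Vale.Agent.P022D.W.Step
import Vale.Agent.P022D.V.Defs3
import Vale.Agent.P022D.G.Ops

/-!
# P022D, block W: the grading by the components
-/

set_option linter.all false

open Finset
noncomputable section

namespace Vale.Agent.P022D.W.Step

open Vale.Agent.P022 Vale.Agent.P022D.G

/-- the operators of a law have the degrees which the Frobenius elements have -/
theorem law_deg {O V Δ : Type} [CommRing O] [AddCommGroup V] [Module O V] [CommGroup Δ]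
    {t d : GQ → Module.End O V} (h : Law t d) (pj : Δ → V →+ V) (χ : GQ →* Δ)
    (hχ : IsOpen (χ.ker : Set GQ)) (S : Finset ℕ)
    (hf : ∀ (ℓ : ℕ) φ, ℓ.Prime → ℓ ∉ S → IsFrob ℓ φ → ∀ c v,
      pj (c * χ φ) (t φ v) = t φ (pj c v) ∧ pj (c * χ φ * χ φ) (d φ v) = d φ (pj c v))
    (g : GQ) (c : Δ) (v : V) :
    pj (c * χ g) (t g v) = t g (pj c v) ∧ pj (c * χ g * χ g) (d g v) = d g (pj c v) := by
  obtain ⟨U, n, o, e⟩ := h.opn v
  obtain ⟨U', n', o', e'⟩ := h.opn (pj c v)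
  obtain ⟨ℓ, φ, k, hl, hS, hφ, hu⟩ := frob (U ⊓ U' ⊓ χ.ker) inferInstance ((o.inter o').inter hχ) g S
  have H := hf ℓ φ hl hS hφ
  have ht : ∀ k : ℕ, (∀ c v, pj (c * χ φ ^ k) (t (φ ^ k) v) = t (φ ^ k) (pj c v)) ∧
      ∀ c v, pj (c * χ φ ^ (k + 1)) (t (φ ^ (k + 1)) v) = t (φ ^ (k + 1)) (pj c v) := by
    intro k
    induction k with
    | zero =>
      refine ⟨fun c v => ?_, fun c v => by rw [zero_add, pow_one, pow_one]; exact (H c v).1⟩
      rw [pow_zero, pow_zero, mul_one, h.one, Module.End.ofNat_apply, Module.End.ofNat_apply,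
        map_nsmul]
    | succ k ih =>
      refine ⟨ih.2, fun c v => ?_⟩
      have a := LinearMap.congr_fun (h.mul (φ ^ (k + 1)) φ) v
      have b := LinearMap.congr_fun (h.mul (φ ^ (k + 1)) φ) (pj c v)
      rw [← pow_succ, pow_succ φ k, mul_inv_cancel_right, ← pow_succ φ k, LinearMap.add_apply,
        Module.End.mul_apply, Module.End.mul_apply] at a b
      rw [eq_sub_of_add_eq a.symm, eq_sub_of_add_eq b.symm, map_sub, ← ih.1, ← (H _ _).2,
        ← (H _ _).1, ← ih.2, mul_assoc c, ← pow_succ', mul_assoc c, ← pow_succ, mul_assoc c,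
        ← pow_succ]
  have hd : ∀ (k : ℕ) c v, pj (c * χ φ ^ k * χ φ ^ k) (d (φ ^ k) v) = d (φ ^ k) (pj c v) := by
    intro k
    induction k with
    | zero => intro c v; rw [pow_zero, pow_zero, mul_one, mul_one, h.d1]; rfl
    | succ k ih =>
      intro c v
      rw [pow_succ φ, h.dm, Module.End.mul_apply, Module.End.mul_apply, ← (H _ _).2, ← ih]
      congr 2
      simp only [pow_succ, mul_comm, mul_left_comm, mul_assoc]
  have eg : φ ^ k = g * (g⁻¹ * φ ^ k) := by rw [mul_inv_cancel_left]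
  have ec : χ g = χ φ ^ k := by
    rw [← map_pow, eg, map_mul, MonoidHom.mem_ker.1 hu.2, mul_one]
  rw [ec]
  constructor
  · rw [← (e _ hu.1.1).2 g, ← (e' _ hu.1.2).2 g, ← eg, (ht k).1]
  · have a := hd k c v
    rw [eg, h.dm, Module.End.mul_apply, Module.End.mul_apply, (e _ hu.1.1).1,
      (e' _ hu.1.2).1] at a
    exact a

section abs

variable {B X Δ : Type*} [CommRing B] [AddCommGroup X] [Module B X] [CommGroup Δ]

/-- `x` has degree `δ` on `Y` -/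
def Deg (Y : Submodule B X) (pj : Δ → X →+ X) (x : B) (δ : Δ) : Prop :=
  ∀ c, ∀ v ∈ Y, pj (c * δ) (x • v) = x • pj c v

variable {Y : Submodule B X} {pj : Δ → X →+ X}

theorem Deg.one : Deg Y pj 1 1 := fun c v _ => by rw [mul_one, one_smul, one_smul]

theorem Deg.mul {x y : B} {δ ε : Δ} (h : Deg Y pj x δ) (h' : Deg Y pj y ε) :
    Deg Y pj (x * y) (δ * ε) := fun c v hv => by
  rw [mul_comm δ, ← mul_assoc, mul_smul, h _ _ (Y.smul_mem _ hv), h' c v hv, mul_smul]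

theorem Deg.pow {x : B} {δ : Δ} (h : Deg Y pj x δ) (i : ℕ) : Deg Y pj (x ^ i) (δ ^ i) := by
  induction i with
  | zero => rw [pow_zero, pow_zero]; exact Deg.one
  | succ i ih => rw [pow_succ, pow_succ]; exact ih.mul h

theorem Deg.add {x y : B} {δ : Δ} (h : Deg Y pj x δ) (h' : Deg Y pj y δ) :
    Deg Y pj (x + y) δ := fun c v hv => by
  rw [add_smul, map_add, h c v hv, h' c v hv, add_smul]

theorem Deg.sub {x y : B} {δ : Δ} (h : Deg Y pj x δ) (h' : Deg Y pj y δ) :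
    Deg Y pj (x - y) δ := fun c v hv => by
  rw [sub_smul, map_sub, h c v hv, h' c v hv, sub_smul]

theorem Deg.ker {x : B} (h : Deg Y pj x 1) (c : Δ) {v : X} (hv : v ∈ Y) (h0 : x • v = 0) :
    x • pj c v = 0 := by
  rw [← h c v hv, h0, map_zero]

/-- a homogeneous element minus a constant stays locally nilpotent on the components -/
theorem Deg.nil (h2 : ∀ v ∈ Y, (2 : B) • v = 0) (hY : ∀ c, ∀ v ∈ Y, pj c v ∈ Y) {x y : B} {δ : Δ}
    {a : ℕ} (hδ : δ ^ 2 ^ a = 1) (hx : Deg Y pj x δ) (hy : Deg Y pj y 1) (c : Δ) {v : X}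
    (hv : v ∈ Y) (h0 : ∃ n : ℕ, (x - y) ^ n • v = 0) : ∃ n : ℕ, (x - y) ^ n • pj c v = 0 := by
  obtain ⟨n, hn⟩ := h0
  have e : ∀ j : ℕ, (2 : B) ∣ (x - y) ^ 2 ^ j - (x ^ 2 ^ j - y ^ 2 ^ j) := fun j => by
    induction j with
    | zero => simp
    | succ j ih =>
      obtain ⟨c, hc⟩ := ih
      refine ⟨2 * c ^ 2 + 2 * c * (x ^ 2 ^ j - y ^ 2 ^ j) + (y ^ 2 ^ j) ^ 2 -
        x ^ 2 ^ j * y ^ 2 ^ j, ?_⟩
      rw [pow_succ, pow_mul, pow_mul, pow_mul, eq_add_of_sub_eq hc]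
      ring
  have h1 := hx.pow (2 ^ (a + n))
  have h3 := hy.pow (2 ^ (a + n))
  rw [show δ ^ 2 ^ (a + n) = 1 by rw [pow_add, pow_mul, hδ, one_pow]] at h1
  rw [one_pow] at h3
  refine ⟨2 ^ (a + n), ?_⟩
  rw [eq_of_two (h2 _ (hY c v hv)) (e _)]
  refine (h1.sub h3).ker c hv ?_
  have hle : n ≤ 2 ^ (a + n) := (Nat.lt_two_pow_self.le).trans
    (Nat.pow_le_pow_right two_pos (Nat.le_add_left n a))
  rw [← eq_of_two (h2 v hv) (e _), ← Nat.sub_add_cancel hle, pow_add, mul_smul, hn, smul_zero]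

/-- **split case**, from degrees -/
theorem rep_gr (h2 : ∀ v ∈ Y, (2 : B) • v = 0) {δ : Δ} {a k : ℕ} (ha : 1 ≤ a)
    (hδ : orderOf δ = 2 ^ a) (hid : ∀ v ∈ Y, pj 1 (pj 1 v) = pj 1 v)
    (hor : ∀ c, c ≠ 1 → ∀ v ∈ Y, pj c (pj 1 v) = 0)
    (hsum : ∀ v ∈ Y, ∑ i ∈ range (2 ^ a), pj (δ ^ i) v = v) {e₁ e₂ w z₁ z₂ τ : B}
    (d₁ : Deg Y pj e₁ δ) (d₂ : Deg Y pj e₂ δ) (p₂ : ∀ v ∈ Y, e₂ ^ 2 ^ a • v = v)
    (hw : ∀ v ∈ Y, w • v = ((e₁ * e₂) ^ k - 1) • v)
    (hz : ∀ v ∈ Y, z₁ • v = 0 → z₂ • v = 0 → e₁ • v = v ∧ e₂ • v = v)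
    (hτ : ∀ v ∈ Y,
      τ • v = ((∑ i ∈ range (2 ^ a), e₁ ^ i) * ∑ i ∈ range (2 ^ a), e₂ ^ i) • v)
    (K : Submodule B X) (hK : K ≤ Y) (hs : ∀ v ∈ K, pj 1 v ∈ K)
    (h : Cs K {w} (w ^ (2 ^ a - 1))) : Cs K {z₁, z₂} τ := by
  have H1 : 1 ≤ 2 ^ a := Nat.one_le_two_pow
  have ep : δ ^ 2 ^ a = 1 := by rw [← hδ, pow_orderOf_eq_one]
  have ds : Deg Y pj (e₁ * e₂ ^ (2 ^ a - 1)) 1 := by
    have := d₁.mul (d₂.pow (2 ^ a - 1))
    rwa [← pow_succ', Nat.sub_add_cancel H1, ep] at this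
  have e1 : ∀ v ∈ Y, (e₁ * e₂ ^ (2 ^ a - 1) * e₂) • v = e₁ • v := fun v hv => by
    rw [mul_assoc, ← pow_succ, Nat.sub_add_cancel H1, mul_smul, p₂ v hv]
  refine rep_split (fun v hv => h2 v (hK hv)) (s := e₁ * e₂ ^ (2 ^ a - 1)) (η := e₂) (k := k) ha
    (pj 1) hs (fun v hv => p₂ v (hK hv)) (fun v hv => hid v (hK hv))
    (fun v hv => by simpa using ds 1 v (hK hv)) (fun v hv i h0 h1 => ?_) (fun v hv => ?_)
    (fun v hv => ?_) (fun v hv a1 a2 => ?_) (fun v hv => ?_) h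
  · have := d₂.pow i (δ ^ i)⁻¹ _ (hK (hs v hv))
    rw [inv_mul_cancel] at this
    rw [this, hor _ (fun e => ?_) v (hK hv), smul_zero]
    exact pow_ne_one_of_lt_orderOf h0.ne' (hδ ▸ h1) (inv_eq_one.1 e)
  · conv_rhs => rw [← hsum v (hK hv)]
    refine sum_congr rfl fun i hi => ?_
    rw [← d₂.pow i 1 _ (Y.smul_mem _ (hK hv)), one_mul, ← mul_smul, ← pow_add,
      Nat.add_sub_cancel' (mem_range.1 hi).le, p₂ v (hK hv)]
  · rw [hw v (hK hv), sub_smul, sub_smul, pow_congr (K := Y) (x := e₁ * e₂)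
      (y := e₁ * e₂ ^ (2 ^ a - 1) * e₂ ^ 2) (fun v hv => by
        rw [sq, ← mul_assoc, mul_smul (e₁ * e₂ ^ (2 ^ a - 1) * e₂), e1 _ (Y.smul_mem _ hv), mul_smul]) k v
      (hK hv)]
  · obtain ⟨b1, b2⟩ := hz v (hK hv) a1 a2
    exact ⟨by conv_lhs => rw [← b2, ← mul_smul, e1 v (hK hv), b1], b2⟩
  · have f : ∀ v ∈ Y, e₂ • (∑ i ∈ range (2 ^ a), e₂ ^ i) • v =
        (∑ i ∈ range (2 ^ a), e₂ ^ i) • v := fun v hv => by
      rw [← sub_eq_zero]
      conv_lhs => rw [← one_smul B ((∑ i ∈ range (2 ^ a), e₂ ^ i) • v), smul_smul e₂, mul_one,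
        ← sub_smul, ← mul_smul, mul_geom_sum, sub_smul, p₂ v hv, one_smul, sub_self]
    have f2 : ∀ j : ℕ, e₂ ^ j • (∑ i ∈ range (2 ^ a), e₂ ^ i) • v =
        (∑ i ∈ range (2 ^ a), e₂ ^ i) • v := fun j => by
      induction j with
      | zero => simp
      | succ j ih => rw [pow_succ, mul_smul, f v (hK hv), ih]
    rw [hτ v (hK hv), mul_comm (∑ i ∈ range (2 ^ a), e₂ ^ i), mul_smul, mul_smul,
      sum_smul (f := fun i => e₁ ^ i), sum_smul (f := fun i => (e₁ * _) ^ i)]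
    refine sum_congr rfl fun i _ => ?_
    rw [mul_pow, ← pow_mul, mul_smul, f2]

end abs

end Vale.Agent.P022D.W.Step

namespace Vale.Agent.P022D.V

open scoped MatrixGroups ModularForm
open Vale.Agent.P022.H218.L3 Vale.Agent.P027M.M

section formal

variable {M : ℕ} (S : Type) [CommRing S]

/-- multiplication by a function of the determinant -/
def tw (R : Type) [CommRing R] [Algebra S R] (f : (ZMod M)ˣ → S) : Module.End S (FT M R) where
  toFun w g := f (Matrix.GeneralLinearGroup.det g) • w g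
  map_add' w w' := by ext1 g; simp
  map_smul' c w := by
    ext1 g
    simp only [Pi.smul_apply, RingHom.id_apply]
    rw [smul_comm]

variable {S} {R R' : Type} [CommRing R] [Algebra S R] [CommRing R'] [Algebra S R']

theorem tw_apply (f : (ZMod M)ˣ → S) (w : FT M R) (g : GM M) :
    tw S R f w g = f (Matrix.GeneralLinearGroup.det g) • w g := rfl

theorem det_dg' (a d : (ZMod M)ˣ) : Matrix.GeneralLinearGroup.det (dg a d) = a * d := by
  apply Units.ext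
  rw [Matrix.GeneralLinearGroup.val_det_apply, dg_coe, Matrix.det_fin_two_of]
  simp

theorem det_un' (x : ZMod M) : Matrix.GeneralLinearGroup.det (un x) = 1 := by
  apply Units.ext
  rw [Matrix.GeneralLinearGroup.val_det_apply, un_coe, Matrix.det_fin_two_of]
  simp

theorem det_rd' (γ : SL(2, ℤ)) : Matrix.GeneralLinearGroup.det (rd M γ) = 1 := by
  apply Units.ext
  exact (Matrix.SpecialLinearGroup.map (Int.castRingHom (ZMod M)) γ).2

theorem rt_tw (f : (ZMod M)ˣ → S) (h : GM M) (w : FT M R) : rt S R h (tw S R f w) =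
    tw S R (fun x => f (x * Matrix.GeneralLinearGroup.det h)) (rt S R h w) := by
  ext1 g
  rw [rt_apply, tw_apply, tw_apply, map_mul, rt_apply]

theorem Uf_tw (f : (ZMod M)ˣ → S) (p : ℕ) (u : (ZMod M)ˣ) (w : FT M R) :
    Uf S R p u (tw S R f w) = tw S R (fun x => f (x * u)) (Uf S R p u w) := by
  ext g n
  change (Uo p (tw S R f w (dg 1 u * g))).coeff n = (f _ • Uo p (w (dg 1 u * g))).coeff n
  rw [tw_apply, map_mul, det_dg', one_mul, mul_comm u]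
  simp [Uo]

theorem Vf_tw (f : (ZMod M)ˣ → S) (p : ℕ) (u : (ZMod M)ˣ) (w : FT M R) :
    Vf S R p u (tw S R f w) = tw S R (fun x => f (x * u)) (Vf S R p u w) := by
  ext g n
  change (Vo p (tw S R f w (dg u 1 * g))).coeff n = (f _ • Vo p (w (dg u 1 * g))).coeff n
  rw [tw_apply, map_mul, det_dg', mul_one, mul_comm u]
  simp only [Vo, PowerSeries.coeff_mk, PowerSeries.coeff_smul]
  split_ifs <;> simp

theorem ep_tw (f : (ZMod M)ˣ → S) (k : ℕ) (w : FT M R) :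
    ep S R M k (tw S R f w) = tw S R f (ep S R M k w) := by
  rw [ep, LinearMap.smul_apply, LinearMap.smul_apply, map_zsmul, AlgHom.toLinearMap_apply,
    AlgHom.toLinearMap_apply, rt_tw, det_dg']
  simp

theorem pw_tw (f : (ZMod M)ˣ → S) (i p : ℕ) (w : FT M R) :
    pw S R M i p (tw S R f w) = tw S R f (pw S R M i p w) := by
  simp only [pw, LinearMap.add_apply, LinearMap.smul_apply, LinearMap.sub_apply,
    Module.End.one_apply, ep_tw, map_add, map_nsmul, map_sub]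

theorem T2_tw (f : (ZMod M)ˣ → S) (i p : ℕ) (u : (ZMod M)ˣ) (w : FT M R) :
    T2 S R i p u (tw S R f w) = tw S R (fun x => f (x * u)) (T2 S R i p u w) := by
  simp only [T2, LinearMap.add_apply, LinearMap.smul_apply, Module.End.mul_apply, pw_tw, Uf_tw,
    Vf_tw, map_add, map_nsmul]

theorem S2_tw (f : (ZMod M)ˣ → S) (i p : ℕ) (u : (ZMod M)ˣ) (w : FT M R) :
    S2 S R i p u (tw S R f w) = tw S R (fun x => f (x * (u * u))) (S2 S R i p u w) := by
  simp only [S2, Sf, LinearMap.smul_apply, Module.End.mul_apply, pw_tw, AlgHom.toLinearMap_apply,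
    rt_tw, det_dg', map_nsmul]

theorem ml_tw (φ : R →ₗ[S] R') (f : (ZMod M)ˣ → S) (w : FT M R) :
    ml S M φ (tw S R f w) = tw S R' f (ml S M φ w) := by
  ext g n
  rw [ml_coeff, tw_apply, tw_apply, PowerSeries.coeff_smul, PowerSeries.coeff_smul, ml_coeff,
    map_smul]

theorem Od_tw (f : (ZMod M)ˣ → S) {w : FT M R} (h : w ∈ Od S M R) : tw S R f w ∈ Od S M R :=
  fun g n hn => by rw [tw_apply, PowerSeries.coeff_smul, h g n hn, smul_zero]

theorem rt_tw' {f : (ZMod M)ˣ → S} {h : GM M}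
    (e : ∀ x, f (x * Matrix.GeneralLinearGroup.det h) = f x) (w : FT M R) :
    rt S R h (tw S R f w) = tw S R f (rt S R h w) := by
  rw [rt_tw, funext e]

theorem Eg_tw {f : (ZMod M)ˣ → S} {H : Set (GM M)} {χ : GM M → S}
    (e : ∀ h ∈ H, ∀ x, f (x * Matrix.GeneralLinearGroup.det h) = f x) {w : FT M R}
    (h : w ∈ Eg S R H χ) : tw S R f w ∈ Eg S R H χ := fun k hk => by
  rw [rt_tw' (e k hk), h k hk, map_smul]

theorem Wh_tw (f : (ZMod M)ˣ → S) {z : S} {w : FT M R} (h : w ∈ Wh S R M z) :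
    tw S R f w ∈ Wh S R M z := fun x => by
  rw [rt_tw' (fun y => by rw [det_un', mul_one]), ← map_smul, h x]

variable {Δ : Type} [CommGroup Δ]

open Classical in
/-- the indicator function of a fibre -/
def ind (S : Type) [CommRing S] (ν : (ZMod M)ˣ →* Δ) (c : Δ) (x : (ZMod M)ˣ) : S :=
  if ν x = c then 1 else 0

/-- the projector on the components with `ν (det g) = c` -/
def pj (S R : Type) [CommRing S] [CommRing R] [Algebra S R] (ν : (ZMod M)ˣ →* Δ) (c : Δ) :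
    Module.End S (FT M R) := tw S R (ind S ν c)

theorem ind_mul (ν : (ZMod M)ˣ →* Δ) (c : Δ) (u : (ZMod M)ˣ) :
    (fun x => ind S ν c (x * u)) = ind S ν (c * (ν u)⁻¹) := by
  funext x
  have e : ν (x * u) = c ↔ ν x = c * (ν u)⁻¹ := by rw [map_mul, eq_mul_inv_iff_mul_eq]
  unfold ind
  by_cases h : ν (x * u) = c
  · rw [if_pos h, if_pos (e.1 h)]
  · rw [if_neg h, if_neg fun h' => h (e.2 h')]

theorem pj_T2 (ν : (ZMod M)ˣ →* Δ) (c : Δ) (i p : ℕ) (u : (ZMod M)ˣ) (w : FT M R) :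
    pj S R ν (c * (ν u)⁻¹) (T2 S R i p u w) = T2 S R i p u (pj S R ν c w) := by
  rw [pj, pj, T2_tw, ind_mul]

theorem pj_S2 (ν : (ZMod M)ˣ →* Δ) (c : Δ) (i p : ℕ) (u : (ZMod M)ˣ) (w : FT M R) :
    pj S R ν (c * (ν u)⁻¹ * (ν u)⁻¹) (S2 S R i p u w) = S2 S R i p u (pj S R ν c w) := by
  rw [pj, pj, S2_tw, ind_mul, map_mul, mul_inv, mul_assoc]

theorem pj_rt (ν : (ZMod M)ˣ →* Δ) (c : Δ) (h : GM M) (w : FT M R) :
    pj S R ν (c * (ν (Matrix.GeneralLinearGroup.det h))⁻¹) (rt S R h w) =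
      rt S R h (pj S R ν c w) := by
  rw [pj, pj, rt_tw, ind_mul]

theorem pj_rt' (ν : (ZMod M)ˣ →* Δ) (c : Δ) {h : GM M}
    (e : ν (Matrix.GeneralLinearGroup.det h) = 1) (w : FT M R) :
    pj S R ν c (rt S R h w) = rt S R h (pj S R ν c w) := by
  rw [← pj_rt, e, inv_one, mul_one]

theorem pj_id (ν : (ZMod M)ˣ →* Δ) (c : Δ) (w : FT M R) :
    pj S R ν c (pj S R ν c w) = pj S R ν c w := by
  ext1 g
  rw [pj, tw_apply, tw_apply, smul_smul, ind]
  split_ifs <;> simp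

theorem pj_or (ν : (ZMod M)ˣ →* Δ) {c c' : Δ} (h : c ≠ c') (w : FT M R) :
    pj S R ν c (pj S R ν c' w) = 0 := by
  ext1 g
  rw [pj, pj, tw_apply, tw_apply, smul_smul, ind, ind]
  split_ifs with h1 h2
  · exact absurd (h1.symm.trans h2) h
  all_goals simp

theorem pj_sum (ν : (ZMod M)ˣ →* Δ) {δ : Δ} {n : ℕ} (hn : 0 < n) (hδ : orderOf δ = n)
    (hν : ∀ x, ∃ i : ℕ, ν x = δ ^ i) (w : FT M R) :
    ∑ i ∈ range n, pj S R ν (δ ^ i) w = w := by
  ext1 g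
  obtain ⟨i, hi⟩ := hν (Matrix.GeneralLinearGroup.det g)
  rw [← pow_mod_orderOf, hδ] at hi
  rw [Finset.sum_apply, sum_eq_single (i % n) (fun j hj hne => ?_)
    (fun h => absurd (mem_range.2 (Nat.mod_lt _ hn)) h)]
  · rw [pj, tw_apply, ind, if_pos hi, one_smul]
  · rw [pj, tw_apply, ind, if_neg, zero_smul]
    intro e
    have a1 : j < orderOf δ := hδ ▸ mem_range.1 hj
    have a2 : i % n < orderOf δ := by rw [hδ]; exact Nat.mod_lt _ hn
    exact hne (pow_injOn_Iio_orderOf a1 a2 (e.symm.trans hi))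

end formal

variable {O : Type} [CommRing O] [Co O] {M : ℕ}

/-- `f` is invariant under the Galois group of the coefficients -/
def GI (O : Type) [CommRing O] [Co O] {M : ℕ} (f : (ZMod M)ˣ → O) : Prop :=
  ∀ σ : ℂ ≃+* ℂ, (∀ a : O, σ (Co.j a) = Co.j a) → ∀ a : (ZMod M)ˣ,
    σ (ze M 1) = ze M 1 ^ (a : ZMod M).val → ∀ x, f (a * x) = f x

theorem L_tw {f : (ZMod M)ˣ → O} (hf : GI O f) {k : ℕ} {w : FT M (AA O)} (h : w ∈ L O M k) :
    tw O _ f w ∈ L O M k := by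
  obtain ⟨⟨F, h1, h2⟩, h3⟩ := h
  have e : ∀ g n, av O ((tw O _ f w g).coeff n) =
      Co.j (f (Matrix.GeneralLinearGroup.det g)) * av O ((w g).coeff n) := by
    intro g n
    rw [tw_apply, PowerSeries.coeff_smul, Algebra.smul_def, map_mul, av_alg]
  refine ⟨⟨fun g => (Co.j (f (Matrix.GeneralLinearGroup.det g)) : ℂ) • F g,
    ⟨fun g => ?_, fun γ g => ?_⟩, fun g τ => ?_⟩, fun σ hσ a ha g n => ?_⟩
  · have h := (Bdd.const (Co.j (f (Matrix.GeneralLinearGroup.det g)) : ℂ)).mul (h1.bdd g)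
    rw [zero_add] at h
    exact h
  · rw [ModularForm.SL_smul_slash, h1.eqv, map_mul, det_rd', one_mul]
  · have h := (h2 g τ).mul_left (Co.j (f (Matrix.GeneralLinearGroup.det g)) : ℂ)
    refine h.congr_fun fun n => ?_
    rw [PowerSeries.coeff_map, PowerSeries.coeff_map, e, mul_assoc]
  · rw [e, e, map_mul σ, hσ, h3 σ hσ a ha, map_mul, det_dg', one_mul, hf σ hσ a ha]

theorem L2_tw {f : (ZMod M)ˣ → O} (hf : GI O f) {k : ℕ} {w : FT M (AA O)} (h : w ∈ L2 O M k) :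
    tw O _ f w ∈ L2 O M k := by
  refine ⟨?_, ?_⟩
  · have := L_tw hf h.1
    rwa [LinearMap.add_apply, map_add, ← ep_tw] at this
  · have := L_tw hf h.2
    rwa [LinearMap.sub_apply, map_sub, ← ep_tw] at this

theorem red_tw (ϖ : O) (f : (ZMod M)ˣ → O) (w : FT M (AA O)) :
    red M ϖ (tw O _ f w) = tw O _ f (red M ϖ w) := by
  ext1 g
  have := congrFun (map_smul (red M ϖ) (f (Matrix.GeneralLinearGroup.det g)) w) g
  exact this

theorem VV_tw {f : (ZMod M)ˣ → O} (hf : GI O f) {k : ℕ} {ϖ : O} {v : FT M (RR ϖ)}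
    (hv : v ∈ VV M k ϖ) : tw O _ f v ∈ VV M k ϖ := by
  refine (Submodule.mem_iInf _).2 fun s => Submodule.mem_comap.1 ((iSup_le ?_ :
    _ ≤ Submodule.comap (tw O _ f) _) ((Submodule.mem_iInf _).1 hv s))
  rintro l _ ⟨w, hw, rfl⟩
  exact Submodule.mem_iSup_of_mem l ⟨_, L_tw hf hw, red_tw ϖ f w⟩

theorem V2_tw {f : (ZMod M)ˣ → O} (hf : GI O f) {k : ℕ} {ϖ : O} {v : FT M (RR ϖ)}
    (hv : v ∈ V2 M k ϖ) : tw O _ f v ∈ V2 M k ϖ := by
  refine (Submodule.mem_iInf _).2 fun s => Submodule.mem_comap.1 ((iSup_le ?_ :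
    _ ≤ Submodule.comap (tw O _ f) _) ((Submodule.mem_iInf _).1 hv s))
  rintro l _ ⟨w, hw, rfl⟩
  exact Submodule.mem_iSup_of_mem l ⟨_, L2_tw hf hw, red_tw ϖ f w⟩

theorem X2_tw {f : (ZMod M)ˣ → O} (hf : GI O f) {i : ℕ} {ϖ : O} {v : FT M (RR ϖ)}
    (hv : v ∈ X2 M i ϖ) : tw O _ f v ∈ X2 M i ϖ := ⟨V2_tw hf hv.1, Od_tw f hv.2⟩

theorem Vb_tw {f : (ZMod M)ˣ → O} (hf : GI O f) {ϖ : O} {v : FT M (RR ϖ)}
    (hv : v ∈ Vb M ϖ) : tw O _ f v ∈ Vb M ϖ := ⟨VV_tw hf hv.1, Od_tw f hv.2⟩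

theorem XD1_tw {f : (ZMod M)ˣ → O} (hf : GI O f) {k : ℕ} {v : FT M (RD O)}
    (hv : v ∈ XD1 O M k) : tw O _ f v ∈ XD1 O M k := by
  refine ⟨Submodule.mem_comap.1 ((iSup_le ?_ : _ ≤ Submodule.comap (tw O _ f) _) hv.1),
    Od_tw f hv.2⟩
  rintro n _ ⟨w, hw, rfl⟩
  exact Submodule.mem_iSup_of_mem n ⟨_, VV_tw hf hw, ml_tw _ f w⟩

theorem XD_tw {f : (ZMod M)ˣ → O} (hf : GI O f) {i : ℕ} {v : FT M (RD O)}
    (hv : v ∈ XD O M i) : tw O _ f v ∈ XD O M i := by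
  obtain ⟨a, ha, b, hb, rfl⟩ := Submodule.mem_sup.1 hv
  rw [map_add]
  exact Submodule.add_mem_sup (XD1_tw hf ha) (XD1_tw hf hb)

/-- if the `N`-th roots of unity lie in the coefficients, functions modulo `N` are invariant -/
theorem gi_ind {Δ : Type} [CommGroup Δ] (ν : (ZMod M)ˣ →* Δ) (c : Δ)
    (h : ∀ σ : ℂ ≃+* ℂ, (∀ a : O, σ (Co.j a) = Co.j a) → ∀ a : (ZMod M)ˣ,
      σ (ze M 1) = ze M 1 ^ (a : ZMod M).val → ν a = 1) : GI O (ind O ν c) :=
  fun σ hσ a ha x => by rw [ind, ind, map_mul ν, h σ hσ a ha, one_mul]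

end Vale.Agent.P022D.V
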