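import Vale.Agent.P022D.W.Core
import Vale.Agent.P022D.Gma.Rep

/-!
# P022D, block W: the two characters of a lift, types
-/

set_option linter.all false

noncomputable section

namespace Vale.Agent.P022D.W

open Classical

section defs

variable {G A F : Type} [Group G] [CommRing A] [Field F]

/-- the root of `X ^ 2 - t X + d` above `a0` -/
def rt (π : A →+* F) (a0 : F) (t d : A) : A :=
  if h : ∃ α, α ^ 2 - t * α + d = 0 ∧ π α = a0 then h.choose else 0

/-- the first character, from the trace `t` and the determinant `d` -/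
def d1 (π : A →+* F) (a0 : F) (g0 : G) (t d : G → A) (s : G) : A :=
  (t (g0 * s) - (t g0 - rt π a0 (t g0) (d g0)) * t s) *
    Ring.inverse (2 * rt π a0 (t g0) (d g0) - t g0)

/-- the second character -/
def d2 (π : A →+* F) (a0 : F) (g0 : G) (t d : G → A) (s : G) : A := t s - d1 π a0 g0 t d s

/-- the trace function -/
def trc (ρ : G →* Mt A) (g : G) : A := (ρ g).trace

/-- the determinant function -/
def dtm (ρ : G →* Mt A) (g : G) : A := (ρ g).det

variable {π : A →+* F}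

theorem rt_eq (hA : LR π) {a0 : F} {t d α : A} (h : α ^ 2 - t * α + d = 0) (ha : π α = a0)
    (hne : 2 * a0 - π t ≠ 0) : rt π a0 t d = α := by
  have hex : ∃ α, α ^ 2 - t * α + d = 0 ∧ π α = a0 := ⟨α, h, ha⟩
  rw [rt, dif_pos hex]
  obtain ⟨h1, h2⟩ := hex.choose_spec
  have hu : IsUnit (hex.choose + α - t) := hA.loc _ (by
    rw [map_sub, map_add, h2, ha, ← two_mul]; exact hne)
  apply hu.mul_left_cancel
  linear_combination h1 - h

theorem rt_ex (hA : LR π) {a0 : F} {t d a : A} (ha : π a = a0)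
    (h : a0 ^ 2 - π t * a0 + π d = 0) (hne : 2 * a0 - π t ≠ 0) :
    ∃ α, α ^ 2 - t * α + d = 0 ∧ π α = a0 := by
  obtain ⟨n, hn⟩ := hA.nil
  haveI := Gma.henselian_of_pow hn
  obtain ⟨α, β, hs, hp, hα⟩ := Gma.hensel (RingHom.ker π) t d a
    (by rw [RingHom.mem_ker]; simp only [map_add, map_sub, map_mul, map_pow, ha]; exact h)
    ((hA.loc _ (by simp only [map_sub, map_mul, map_ofNat, ha]; exact hne)).map _)
  refine ⟨α, by rw [← hs, ← hp]; ring, ?_⟩
  rw [RingHom.mem_ker, map_sub, sub_eq_zero] at hα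
  rw [hα, ha]

/-- naturality, with a twist by a character `χ` -/
theorem d_map {B : Type} [CommRing B] {π' : B →+* F} (hA : LR π) (hB : LR π') (u : A →+* B)
    (hu : ∀ a, π' (u a) = π a) {a0 : F} {g0 s : G} {t d : G → A} {t' d' χ : G → B} {a : A}
    (ha : π a = a0) (h : a0 ^ 2 - π (t g0) * a0 + π (d g0) = 0) (hne : 2 * a0 - π (t g0) ≠ 0)
    (hχ : π' (χ g0) = 1) (h0 : t' g0 = χ g0 * u (t g0)) (hd : d' g0 = χ g0 ^ 2 * u (d g0))
    (hs : t' s = χ s * u (t s)) (h0s : t' (g0 * s) = χ g0 * χ s * u (t (g0 * s))) :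
    d1 π' a0 g0 t' d' s = χ s * u (d1 π a0 g0 t d s) ∧
      d2 π' a0 g0 t' d' s = χ s * u (d2 π a0 g0 t d s) := by
  obtain ⟨α, h1, h2⟩ := rt_ex hA ha h hne
  have e1 := rt_eq hA h1 h2 hne
  have e2 : rt π' a0 (t' g0) (d' g0) = χ g0 * u α := by
    refine rt_eq hB ?_ (by rw [map_mul, hχ, hu, h2, one_mul]) (by
      rw [h0, map_mul, hχ, hu, one_mul]; exact hne)
    have := congrArg u h1
    rw [map_add, map_sub, map_mul, map_pow, map_zero] at this
    rw [h0, hd]
    linear_combination χ g0 ^ 2 * this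
  have hw : IsUnit (2 * α - t g0) := hA.loc _ (by
    rw [map_sub, map_mul, map_ofNat, h2]; exact hne)
  have hc : IsUnit (χ g0) := hB.loc _ (by rw [hχ]; exact one_ne_zero)
  have e3 : d1 π' a0 g0 t' d' s = χ s * u (d1 π a0 g0 t d s) := by
    have hw' : IsUnit (2 * (χ g0 * u α) - t' g0) := by
      have : 2 * (χ g0 * u α) - t' g0 = χ g0 * u (2 * α - t g0) := by
        rw [h0, map_sub, map_mul, map_ofNat]; ring
      rw [this]; exact hc.mul (hw.map u)
    have i1 := Ring.inverse_mul_cancel _ hw'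
    have i2 := congrArg u (Ring.inverse_mul_cancel _ hw)
    rw [map_mul, map_one, map_sub, map_mul, map_ofNat] at i2
    apply hw'.mul_right_cancel
    rw [d1, d1, e1, e2, mul_assoc, i1, h0, hs, h0s]
    simp only [map_mul, map_sub]
    linear_combination (-χ g0 * χ s * (u (t (g0 * s)) - (u (t g0) - u α) * u (t s))) * i2
  exact ⟨e3, by rw [d2, d2, e3, hs, map_sub]; ring⟩

end defs

section

variable {G A F : Type} [Group G] [CommRing A] [Field F] {π : A →+* F} {ℓ : ℕ}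
  {D I N H : Subgroup G} {τ φ g0 : G} {rb : G →* Mt F}

/-- conjugation of matrices -/
def cjH (P Q : Mt A) (h1 : P * Q = 1) (h2 : Q * P = 1) : Mt A →* Mt A where
  toFun M := Q * M * P
  map_one' := by rw [mul_one, h2]
  map_mul' M M' := by
    calc Q * (M * M') * P = Q * M * (P * Q) * M' * P := by rw [h1]; simp [mul_assoc]
      _ = _ := by simp [mul_assoc]

theorem trc_cj (ρ : G →* Mt A) (P Q : Mt A) (h1 : P * Q = 1) (h2 : Q * P = 1) :
    trc ((cjH P Q h1 h2).comp ρ) = trc ρ := by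
  funext g
  show (Q * ρ g * P).trace = (ρ g).trace
  rw [Matrix.trace_mul_cycle, h1, one_mul]

theorem dtm_cj (ρ : G →* Mt A) (P Q : Mt A) (h1 : P * Q = 1) (h2 : Q * P = 1) :
    dtm ((cjH P Q h1 h2).comp ρ) = dtm ρ := by
  funext g
  show (Q * ρ g * P).det = (ρ g).det
  rw [Matrix.det_mul, Matrix.det_mul, mul_right_comm, ← Matrix.det_mul, h2, Matrix.det_one, one_mul]

theorem Lift.cj {ρ : G →* Mt A} (h : Lift π rb ρ) {P Q : Mt A} (h1 : P * Q = 1) (h2 : Q * P = 1)
    (hP : P.map π = 1) : Lift π rb ((cjH P Q h1 h2).comp ρ) := by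
  intro g
  have hQ : Q.map π = 1 := by
    have := congrArg (fun M : Mt A => M.map π) h1
    simpa only [Matrix.map_mul, hP, one_mul, Matrix.map_one π π.map_zero π.map_one] using this
  show (Q * ρ g * P).map π = _
  rw [Matrix.map_mul, Matrix.map_mul, hP, hQ, h g, one_mul, mul_one]

theorem res_g0 (hW : WD ℓ D H g0 rb) {ρ : G →* Mt A} (h : Lift π rb ρ) :
    rb g0 0 0 ^ 2 - π (trc ρ g0) * rb g0 0 0 + π (dtm ρ g0) = 0 ∧
      2 * rb g0 0 0 - π (trc ρ g0) ≠ 0 := by
  simp only [trc, dtm, Matrix.trace_fin_two, Matrix.det_fin_two, map_add, map_sub, map_mul, h.ent,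
    (hW.dg g0 hW.g0H).1]
  refine ⟨by ring, fun e => hW.ne ?_⟩
  linear_combination e

theorem Mon.d (hW : WD ℓ D H g0 rb) (hA : LR π) {σ : G →* Mt A} (hσ : Lift π rb σ)
    (hM : Mon D H σ) {s : G} (hs : s ∈ D) (hsH : s ∈ H) :
    d1 π (rb g0 0 0) g0 (trc σ) (dtm σ) s = σ s 0 0 ∧
      d2 π (rb g0 0 0) g0 (trc σ) (dtm σ) s = σ s 1 1 := by
  have a01 := hM.off g0 hW.g0D hW.g0H 0 1 (by decide)
  have a10 := hM.off g0 hW.g0D hW.g0H 1 0 (by decide)
  have e : rt π (rb g0 0 0) (trc σ g0) (dtm σ g0) = σ g0 0 0 :=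
    rt_eq hA (by
      simp only [trc, dtm, Matrix.trace_fin_two, Matrix.det_fin_two, a01]; ring)
      (hσ.ent _ _ _) (res_g0 hW hσ).2
  have hw : IsUnit (2 * σ g0 0 0 - trc σ g0) := hA.loc _ (by
    rw [map_sub, map_mul, map_ofNat, hσ.ent]; exact (res_g0 hW hσ).2)
  have e1 : d1 π (rb g0 0 0) g0 (trc σ) (dtm σ) s = σ s 0 0 := by
    apply hw.mul_right_cancel
    rw [d1, e, mul_assoc, Ring.inverse_mul_cancel _ hw]
    simp only [trc, Matrix.trace_fin_two, map_mul, ent1 _ _ (show (0 : Fin 2) ≠ 1 by decide),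
      ent1 _ _ (show (1 : Fin 2) ≠ 0 by decide), a01, a10]
    ring
  exact ⟨e1, by rw [d2, e1, trc, Matrix.trace_fin_two]; ring⟩

/-- every lift is conjugate to a monomial lift -/
theorem exists_mon (hW : WD ℓ D H g0 rb) (hA : LR π) {ρ : G →* Mt A} (hρ : Lift π rb ρ)
    (hT : TameAt ℓ D I N τ φ ρ) : ∃ (P Q : Mt A) (h1 : P * Q = 1) (h2 : Q * P = 1),
      P.map π = 1 ∧ Mon D H ((cjH P Q h1 h2).comp ρ) := by
  obtain ⟨α, hα, hπ⟩ := rt_ex hA (hρ.ent g0 0 0) (res_g0 hW hρ).1 (res_g0 hW hρ).2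
  simp only [trc, dtm, Matrix.trace_fin_two, Matrix.det_fin_two] at hα
  set M := ρ g0 with hM
  have hu : IsUnit (α - M 1 1) := hA.loc _ (by
    rw [map_sub, hπ, hρ.ent, sub_ne_zero]; exact hW.ne)
  obtain ⟨v, hv⟩ := hu.exists_right_inv
  set x := -(M 0 1 * v) with hx
  set y := M 1 0 * v with hy
  have px : π x = 0 := by rw [hx, map_neg, map_mul, hρ.ent, (hW.dg g0 hW.g0H).1]; simp
  have py : π y = 0 := by rw [hy, map_mul, hρ.ent, (hW.dg g0 hW.g0H).2]; simp
  have hu2 : IsUnit (1 - x * y) := hA.loc _ (by rw [map_sub, map_mul, px]; simp)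
  obtain ⟨w, hw⟩ := hu2.exists_right_inv
  have h1 : (!![1, x; y, 1] : Mt A) * !![w, -(w * x); -(w * y), w] = 1 := by
    ext i j
    fin_cases i <;> fin_cases j <;> simp [Matrix.mul_apply, Fin.sum_univ_two] <;>
      first | linear_combination hw | ring
  have h2 : (!![w, -(w * x); -(w * y), w] : Mt A) * !![1, x; y, 1] = 1 := mul_eq_one_comm.1 h1
  have hP : (!![1, x; y, 1] : Mt A).map π = 1 := by
    ext i j
    fin_cases i <;> fin_cases j <;> simp [px, py]
  have k1 : M 1 0 + M 1 1 * y = α * y := by rw [hy]; linear_combination (-M 1 0) * hv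
  have k2 : M 0 0 + M 0 1 * y = α := by
    rw [hy]; linear_combination (α - M 0 0) * hv - v * hα
  have k3 : M 0 0 * x + M 0 1 = (M 0 0 + M 1 1 - α) * x := by
    rw [hx]; linear_combination (-M 0 1) * hv
  have k4 : M 1 0 * x + M 1 1 = M 0 0 + M 1 1 - α := by
    rw [hx]; linear_combination (M 0 0 - α) * hv + v * hα
  refine ⟨_, _, h1, h2, hP, mon hW hA (hρ.cj h1 h2 hP) (hT.comp _) ?_ ?_⟩
  · show (!![w, -(w * x); -(w * y), w] * M * !![1, x; y, 1]) 0 1 = 0
    simp [Matrix.mul_apply, Fin.sum_univ_two, Matrix.vecMul, dotProduct]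
    linear_combination w * k3 - w * x * k4
  · show (!![w, -(w * x); -(w * y), w] * M * !![1, x; y, 1]) 1 0 = 0
    simp [Matrix.mul_apply, Fin.sum_univ_two, Matrix.vecMul, dotProduct]
    linear_combination w * k1 - w * y * k2

theorem Mon.mul {σ : G →* Mt A} (hM : Mon D H σ) {g : G} (hg : g ∈ D) (hgH : g ∈ H) (k : G)
    (i j : Fin 2) : σ (g * k) i j = σ g i i * σ k i j := by
  obtain ⟨c, hc⟩ := exists_ne i
  rw [map_mul]
  by_cases hij : i = j
  · subst hij
    rw [ent1 _ _ hc.symm, hM.off g hg hgH i c hc.symm]; ring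
  · rw [ent2 _ _ hij, hM.off g hg hgH i j hij]; ring

theorem Mon.pow {σ : G →* Mt A} (hM : Mon D H σ) {g : G} (hg : g ∈ D) (hgH : g ∈ H) (n : ℕ)
    (i : Fin 2) : σ (g ^ n) i i = σ g i i ^ n := by
  induction n with
  | zero => simp
  | succ n ih => rw [pow_succ', hM.mul hg hgH, ih, pow_succ']

theorem Mon.conj {σ : G →* Mt A} (hM : Mon D H σ) {g k : G} (hg : g ∈ D) (hgH : g ∈ H)
    (hk : k ∈ D) (hkH : k ∈ H) (i : Fin 2) : σ (g * k * g⁻¹) i i = σ k i i := by
  have h := hM.mul hg hgH g⁻¹ i i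
  rw [mul_inv_cancel, map_one, Matrix.one_apply_eq] at h
  rw [mul_assoc, hM.mul hg hgH, hM.mul hk hkH, mul_left_comm, ← h, mul_one]

theorem Mon.sq {σ : G →* Mt A} (hM : Mon D H σ) {g : G} (hg : g ∈ D) (hgH : g ∉ H) (i : Fin 2) :
    σ (g * g) i i = -(σ g).det := by
  rw [map_mul, Matrix.det_fin_two, hM.dia g hg hgH 0]
  fin_cases i
  · simp [ent1 _ _ (show (0 : Fin 2) ≠ 1 by decide), hM.dia g hg hgH 0]
  · simp [ent1 _ _ (show (1 : Fin 2) ≠ 0 by decide), hM.dia g hg hgH 1, mul_comm]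

theorem odd_root (hA : LR π) (h2 : (2 : F) = 0) {x y : A} {m : ℕ} (hm : Odd m) (h : x ^ m = y ^ m)
    (hxy : π x = π y) (hy : π y ≠ 0) : x = y := by
  have hu : IsUnit (∑ i ∈ Finset.range m, x ^ i * y ^ (m - 1 - i)) := hA.loc _ (by
    rw [map_sum, Finset.sum_congr rfl (g := fun _ => π y ^ (m - 1)) (fun i hi => by
      have := Finset.mem_range.1 hi
      rw [map_mul, map_pow, map_pow, hxy, ← pow_add]; congr 1; omega)]
    obtain ⟨k, rfl⟩ := hm
    rw [Finset.sum_const, Finset.card_range, nsmul_eq_mul]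
    refine mul_ne_zero ?_ (pow_ne_zero _ hy)
    push_cast
    rw [h2]; simp)
  rw [← sub_eq_zero]
  apply hu.mul_left_cancel
  rw [Commute.geom_sum₂_mul (Commute.all x y), h, sub_self, mul_zero]

end

end Vale.Agent.P022D.W
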